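import Vale.Agent.P220.R2.H180.T.Curve

/-!
# The arc of the squared complex heights
-/

open Set Filter Topology
open scoped ContDiff

set_option linter.unusedSectionVars false

namespace Vale.Agent.P220.R2.H180.T

open H57

variable {E : Type} [NormedAddCommGroup E] [InnerProductSpace ℝ E] [FiniteDimensional ℝ E]

theorem swap {e u : E} (h : Orth e u) : Orth u e := ⟨h.w1, h.v1, h.wv⟩

theorem InPl_swap {e u x : E} (hx : InPl e u x) : InPl u e x := by
  unfold InPl at *
  rw [add_comm]
  exact hx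

theorem InT_swap {e u : E} {z : E × E} (hz : InT e u z) : InT u e z :=
  ⟨hz.n1, InPl_swap hz.p1, InPl_swap hz.p2, hz.o⟩

variable {e u : E} {C : Set (E × E)} {γ : ℝ → E × E}

theorem InT_SSe (h : Orth e u) {z : E × E} (hz : InT e u z) : InT e u (SS e z) :=
  InT_swap ((swap h).InT_SS (InT_swap hz))

theorem wtu_SSe (h : Orth e u) (z : E × E) : wt u (SS e z) = wt u z := (swap h).wt_SS z

theorem wt_SSe (h : Orth e u) (z : E × E) : wt e (SS e z) = -wt e z := (swap h).wtu_SS z

theorem V_zero (hγ : IsCurve e u C γ) (hγ' : ∀ t, SS e (γ t) = γ (Real.pi - t)) (h : Orth e u)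
    (hC : ∀ z ∈ C, InT e u z) {t : ℝ} (h1 : wt e (γ t) = 0) : Real.sin (2 * t) = 0 := by
  have h2 : γ t = SS e (γ t) := by
    refine h.eq_of_wt (hC _ (hγ.mem t)) (InT_SSe h (hC _ (hγ.mem t))) ?_ ?_
    · rw [wt_SSe h, h1, neg_zero]
    · rw [wtu_SSe h]
  rw [hγ'] at h2
  obtain ⟨k, hk⟩ := hγ.inj _ _ h2
  have h3 : 2 * t = ((1 + 2 * k : ℤ) : ℝ) * Real.pi := by
    push_cast
    linarith
  rw [h3]
  exact Real.sin_int_mul_pi _

theorem W_zero (hγ : IsCurve e u C γ) (h : Orth e u) (hC : ∀ z ∈ C, InT e u z) {t : ℝ}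
    (h1 : wt u (γ t) = 0) : Real.sin (2 * t) = 0 := by
  rw [Real.sin_two_mul, hγ.sin_zero h hC h1]
  ring

/-- **The arc.** -/
theorem exists_arc (hγ : IsCurve e u C γ) (hγ' : ∀ t, SS e (γ t) = γ (Real.pi - t))
    (h : Orth e u) (hC : ∀ z ∈ C, InT e u z) :
    ∃ c : ℝ → ℂ, IsArc c ∧ (∀ z ∈ C, ∃ τ ∈ Icc (0 : ℝ) 1, c τ = 2 * wt e z ^ 2 - 1) ∧
      ∀ τ ∈ Icc (0 : ℝ) 1, ∃ z ∈ C, 2 * wt e z ^ 2 - 1 = c τ := by
  set V : ℝ → ℂ := fun t => wt e (γ t) with hV
  set W : ℝ → ℂ := fun t => wt u (γ t) with hW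
  have hVs : ContDiff ℝ ∞ V := wt_smooth e hγ.smooth
  have hWs : ContDiff ℝ ∞ W := wt_smooth u hγ.smooth
  have hVe : ∀ t, V (-t) = V t := fun t => by
    simp only [hV]
    rw [← hγ.sym, h.wt_SS]
  have hVp : ∀ t, V (t + 2 * Real.pi) = V t := fun t => by
    simp only [hV, hγ.per]
  have hVr : ∀ t, V (Real.pi - t) = -V t := fun t => by
    simp only [hV]
    rw [← hγ', wt_SSe h]
  set F : ℝ → ℂ := fun t => 2 * V t ^ 2 - 1 with hF
  have hFs : ContDiff ℝ ∞ F := (contDiff_const.mul (hVs.pow 2)).sub contDiff_const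
  have hFe : ∀ t, F (-t) = F t := fun t => by simp only [hF, hVe]
  have hFp : ∀ t, F (t + Real.pi) = F t := fun t => by
    have h1 := hVr (-t)
    rw [hVe, sub_neg_eq_add, add_comm] at h1
    simp only [hF, h1]
    ring
  have hhalf : ContDiff ℝ ∞ fun t : ℝ => t / 2 := contDiff_id.div_const 2
  have s1 : Sym fun t => (F (t / 2)).re := ⟨(re_smooth hFs).comp hhalf,
    fun t => by rw [neg_div, hFe], fun t => by
      rw [add_div, mul_div_cancel_left₀ _ (two_ne_zero), hFp]⟩
  have s2 : Sym fun t => (F (t / 2)).im := ⟨(im_smooth hFs).comp hhalf,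
    fun t => by rw [neg_div, hFe], fun t => by
      rw [add_div, mul_div_cancel_left₀ _ (two_ne_zero), hFp]⟩
  obtain ⟨c₁, hc₁, hc₁'⟩ := s1.exists_cos
  obtain ⟨c₂, hc₂, hc₂'⟩ := s2.exists_cos
  set c : ℝ → ℂ := fun t => (c₁ t : ℂ) + (c₂ t : ℂ) * Complex.I with hc
  have hcs : ContDiff ℝ ∞ c := of_re_im hc₁ hc₂
  have hcF : ∀ t, c ((1 - Real.cos (2 * t)) / 2) = F t := fun t => by
    simp only [hc, hc₁', hc₂']
    rw [mul_div_cancel_left₀ _ (two_ne_zero)]
    exact Complex.re_add_im _
  have hτ : ∀ x ∈ Icc (0 : ℝ) 1, (1 - Real.cos (2 * (Real.arccos (1 - 2 * x) / 2))) / 2 = x := by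
    intro x hx
    rw [mul_div_cancel₀ _ (two_ne_zero), Real.cos_arccos (by linarith [hx.2]) (by linarith [hx.1])]
    ring
  have hrel : ∀ t, V t ^ 2 + W t ^ 2 = 1 := fun t => h.wt_rel (hC _ (hγ.mem t))
  have hVd : ∀ t, HasDerivAt V (deriv V t) t := fun t => (hVs.differentiable (by simp) t).hasDerivAt
  have hWd : ∀ t, HasDerivAt W (deriv W t) t := fun t => (hWs.differentiable (by simp) t).hasDerivAt
  have hrel1 : ∀ t, V t * deriv V t + W t * deriv W t = 0 := by
    intro t
    have d1 := ((hVd t).pow 2).add ((hWd t).pow 2)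
    have d2 : (fun t => V t ^ 2 + W t ^ 2) = fun _ => 1 := funext hrel
    have d3 : HasDerivAt (fun t => V t ^ 2 + W t ^ 2) _ t := d1
    rw [d2] at d3
    have d4 := d3.unique (hasDerivAt_const _ _)
    simp only [Nat.cast_ofNat] at d4
    linear_combination d4 / 2
  have hV1s : ContDiff ℝ ∞ (deriv V) := ((contDiff_infty_iff_deriv (𝕜 := ℝ)).1 hVs).2
  have hW1s : ContDiff ℝ ∞ (deriv W) := ((contDiff_infty_iff_deriv (𝕜 := ℝ)).1 hWs).2
  have hV1d : ∀ t, HasDerivAt (deriv V) (deriv (deriv V) t) t := fun t =>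
    (hV1s.differentiable (by simp) t).hasDerivAt
  have hW1d : ∀ t, HasDerivAt (deriv W) (deriv (deriv W) t) t := fun t =>
    (hW1s.differentiable (by simp) t).hasDerivAt
  have hrel2 : ∀ t, deriv V t * deriv V t + V t * deriv (deriv V) t +
      (deriv W t * deriv W t + W t * deriv (deriv W) t) = 0 := by
    intro t
    have d1 := ((hVd t).mul (hV1d t)).add ((hWd t).mul (hW1d t))
    have d2 : (fun t => V t * deriv V t + W t * deriv W t) = fun _ => 0 := funext hrel1
    have d3 : HasDerivAt (fun t => V t * deriv V t + W t * deriv W t) _ t := d1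
    rw [d2] at d3
    exact d3.unique (hasDerivAt_const _ _)
  have hV0 : V 0 = 1 := by
    simp only [hV, hγ.zero]
    apply Complex.ext
    · rw [wt_re]
      simp [h.v1]
    · rw [wt_im]
      simp
  have hVpi : V (Real.pi / 2) = 0 := by
    have h1 := hVr (Real.pi / 2)
    rw [sub_half] at h1
    have h2 : (2 : ℂ) * V (Real.pi / 2) = 0 := by linear_combination h1
    simpa using h2
  refine ⟨c, ⟨hcs, ?_, ?_, ?_, ?_⟩, ?_, ?_⟩
  · have h1 := hcF 0
    rw [mul_zero, Real.cos_zero, sub_self, zero_div] at h1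
    rw [h1]
    simp only [hF, hV0]
    norm_num
  · have h1 := hcF (Real.pi / 2)
    rw [mul_div_cancel₀ _ (two_ne_zero), Real.cos_pi] at h1
    norm_num at h1
    rw [h1]
    simp only [hF, hVpi]
    norm_num
  · intro x hx y hy hxy
    have ex := hτ x hx
    have ey := hτ y hy
    set t := Real.arccos (1 - 2 * x) / 2
    set t' := Real.arccos (1 - 2 * y) / 2
    rw [← ex, ← ey, hcF, hcF] at hxy
    have hsq : V t ^ 2 = V t' ^ 2 := by
      simp only [hF] at hxy
      linear_combination hxy / 2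
    have key : Real.cos (2 * t) = Real.cos (2 * t') := by
      have main : ∀ r : ℝ, V t = V r → Real.cos (2 * t) = Real.cos (2 * r) := by
        intro r hr
        rcases h.eq_or_of_wt (hC _ (hγ.mem t)) (hC _ (hγ.mem r)) hr with h1 | h1
        · obtain ⟨k, hk⟩ := hγ.inj _ _ h1
          have h2 : 2 * t = 2 * r + ((2 * k : ℤ) : ℝ) * (2 * Real.pi) := by
            push_cast
            linarith
          rw [h2, Real.cos_add_int_mul_two_pi]
        · rw [hγ.sym] at h1
          obtain ⟨k, hk⟩ := hγ.inj _ _ h1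
          have h2 : 2 * t = -(2 * r) + ((2 * k : ℤ) : ℝ) * (2 * Real.pi) := by
            push_cast
            linarith
          rw [h2, Real.cos_add_int_mul_two_pi, Real.cos_neg]
      rcases sq_eq_sq_iff_eq_or_eq_neg.1 hsq with h1 | h1
      · exact main t' h1
      · rw [← hVr] at h1
        rw [main _ h1, mul_sub, Real.cos_two_pi_sub]
    rw [← ex, ← ey, key]
  · intro x hx h0
    have ex := hτ x hx
    set t := Real.arccos (1 - 2 * x) / 2
    have hcd : ∀ y, HasDerivAt c (deriv c y) y := fun y => (hcs.differentiable (by simp) y).hasDerivAt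
    have hyd : ∀ t, HasDerivAt (fun t => (1 - Real.cos (2 * t)) / 2) (Real.sin (2 * t)) t := by
      intro t
      have h1 : HasDerivAt (fun t : ℝ => 2 * t) 2 t := by
        simpa using (hasDerivAt_id t).const_mul 2
      have h2 := ((h1.cos).const_sub 1).div_const 2
      refine h2.congr_deriv ?_
      ring
    have hFe1 : ∀ t, 2 * (2 * (V t * deriv V t)) =
        (Real.sin (2 * t)) • deriv c ((1 - Real.cos (2 * t)) / 2) := by
      intro t
      have d1 := (hcd ((1 - Real.cos (2 * t)) / 2)).scomp t (hyd t)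
      have d2 : (c ∘ fun t => (1 - Real.cos (2 * t)) / 2) = F := funext hcF
      rw [d2] at d1
      have d3 : HasDerivAt F _ t := (((hVd t).pow 2).const_mul 2).sub_const 1
      have d4 := d3.unique d1
      rw [← d4]
      simp only [Nat.cast_ofNat]
      ring
    have hVV : V t * deriv V t = 0 := by
      have h1 := hFe1 t
      rw [ex, h0, smul_zero] at h1
      linear_combination h1 / 4
    have hWW : W t * deriv W t = 0 := by
      have h1 := hrel1 t
      rw [hVV, zero_add] at h1
      exact h1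
    -- the second derivative
    have hsec : Real.sin (2 * t) = 0 → deriv V t * deriv V t + V t * deriv (deriv V) t = 0 := by
      intro hsin
      have hc1s : ContDiff ℝ ∞ (deriv c) := ((contDiff_infty_iff_deriv (𝕜 := ℝ)).1 hcs).2
      have hc1d : HasDerivAt (deriv c) (deriv (deriv c) ((1 - Real.cos (2 * t)) / 2))
        ((1 - Real.cos (2 * t)) / 2) := (hc1s.differentiable (by simp) _).hasDerivAt
      have d1 := hc1d.scomp t (hyd t)
      have h1 : HasDerivAt (fun t : ℝ => 2 * t) 2 t := by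
        simpa using (hasDerivAt_id t).const_mul 2
      have d2 := (h1.sin).smul d1
      have d3 : (fun t => 2 * (2 * (V t * deriv V t))) =
        fun t => (Real.sin (2 * t)) • deriv c ((1 - Real.cos (2 * t)) / 2) := funext hFe1
      have d4 : HasDerivAt (fun t => 2 * (2 * (V t * deriv V t))) 0 t := by
        rw [d3]
        refine HasDerivAt.congr_deriv d2 ?_
        simp only [Function.comp_apply]
        rw [ex, h0, hsin]
        simp
      have d5 := (((hVd t).mul (hV1d t)).const_mul (2 : ℂ)).const_mul (2 : ℂ)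
      have d6 := d5.unique d4
      linear_combination d6 / 4
    by_cases hVt : V t = 0
    · have hWt : W t ≠ 0 := by
        intro h1
        have h2 := hrel t
        rw [hVt, h1] at h2
        norm_num at h2
      have h1 := hsec (V_zero hγ hγ' h hC hVt)
      rw [hVt, zero_mul, add_zero] at h1
      exact hγ.deriv_wt h hC (mul_self_eq_zero.1 h1) ((mul_eq_zero.1 hWW).resolve_left hWt)
    · have hV1 := (mul_eq_zero.1 hVV).resolve_left hVt
      by_cases hWt : W t = 0
      · have h1 := hsec (W_zero hγ h hC hWt)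
        have h2 := hrel2 t
        rw [h1, hWt, zero_mul, zero_add, add_zero] at h2
        exact hγ.deriv_wt h hC hV1 (mul_self_eq_zero.1 h2)
      · exact hγ.deriv_wt h hC hV1 ((mul_eq_zero.1 hWW).resolve_left hWt)
  · intro z hz
    obtain ⟨t, rfl⟩ := hγ.surj z hz
    exact ⟨(1 - Real.cos (2 * t)) / 2, ⟨by linarith [Real.cos_le_one (2 * t)], by
      linarith [Real.neg_one_le_cos (2 * t)]⟩, hcF t⟩
  · intro τ hτ'
    refine ⟨γ (Real.arccos (1 - 2 * τ) / 2), hγ.mem _, ?_⟩
    change F (Real.arccos (1 - 2 * τ) / 2) = c τ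
    rw [← hcF, hτ τ hτ']

end Vale.Agent.P220.R2.H180.T
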