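import Vale.Agent.P220.R2.H481.HamExt
import Vale.Agent.P220.R2.H57.B.Defs
import Vale.Agent.P220.R2.H180.T.Par

/-!
# Averaging a Hamiltonian over a compact group of isometries
-/

open Set Filter Topology MeasureTheory
open scoped ContDiff

set_option linter.unusedSectionVars false

namespace Vale.Agent.P220.R2.H180.T

open H57 (IsRet Tn Tan Cot)
open H481 (cotangent tan tan_eq_Tan cotangent_eq_Cot dH dH_eq vf om_sub_left om_swap)

variable {E : Type} [NormedAddCommGroup E] [InnerProductSpace ℝ E] [FiniteDimensional ℝ E]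

/-- the action on pairs -/
noncomputable def act (g : E ≃ₗᵢ[ℝ] E) : (E × E) →L[ℝ] (E × E) :=
  (g : E →L[ℝ] E).prodMap (g : E →L[ℝ] E)

theorem act_apply (g : E ≃ₗᵢ[ℝ] E) (z : E × E) : act g z = (g z.1, g z.2) := rfl

theorem act_Tan {F : Type} [NormedAddCommGroup F] [NormedSpace ℝ F] {S : Set F} {R : F →L[ℝ] F}
    (hR : ∀ x ∈ S, R x ∈ S) {x v : F} (hv : v ∈ Tan S x) : R v ∈ Tan S (R x) := by
  obtain ⟨c, hc, hcS, h0, hd⟩ := hv
  refine ⟨fun t => R (c t), R.contDiff.comp hc, fun t => hR _ (hcS t), by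
    beta_reduce
    rw [h0], ?_⟩
  have h1 : HasDerivAt c v 0 := by
    rw [← hd]
    exact (hc.differentiable (by simp) 0).hasDerivAt
  exact (R.hasFDerivAt.comp_hasDerivAt (0 : ℝ) h1).deriv

theorem act_Cot {Q : Set E} {g : E ≃ₗᵢ[ℝ] E} (hg : ∀ q ∈ Q, g q ∈ Q) {z : E × E}
    (hz : z ∈ Cot Q) : act g z ∈ Cot Q :=
  ⟨hg _ hz.1, act_Tan (R := (g : E →L[ℝ] E)) hg hz.2⟩

theorem act_om (g : E ≃ₗᵢ[ℝ] E) (u v : E × E) : H57.om (act g u) (act g v) = H57.om u v := by
  unfold H57.om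
  rw [act_apply, act_apply]
  simp only [LinearIsometryEquiv.inner_map_map]

/-- **Averaging.** -/
theorem ham_avg {Q UQ : Set E} {r : E → E} (hQ : IsRet Q UQ r) (cQ : IsCompact Q)
    {Γ : Type} [Group Γ] [TopologicalSpace Γ] [IsTopologicalGroup Γ] [CompactSpace Γ]
    (σ : Γ →* (E ≃ₗᵢ[ℝ] E)) (hσ : ∀ x, Continuous fun g => σ g x)
    (hΓ : ∀ g, ∀ q ∈ Q, σ g q ∈ Q)
    {Z : Set (E × E)} {ι : ℝ × (E × E) → E × E} (hι : ContDiff ℝ ∞ ι)
    (hmem : ∀ s, ∀ z ∈ Z, ι (s, z) ∈ Cot Q)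
    (heq : ∀ g, ∀ s, ∀ z ∈ Z, act (σ g) z ∈ Z ∧ ι (s, act (σ g) z) = act (σ g) (ι (s, z)))
    {H : ℝ × (E × E) → ℝ} {φ : ℝ → E × E → E × E} (hH : H57.IsHam Q H)
    (hφ : H57.IsHamFlow Q H φ) (hφι : ∀ s ∈ Icc (0 : ℝ) 1, ∀ z ∈ Z, φ s (ι (0, z)) = ι (s, z)) :
    ∃ (H' : ℝ × (E × E) → ℝ) (φ' : ℝ → E × E → E × E), H57.IsHam Q H' ∧
      (∀ g s z, H' (s, act (σ g) z) = H' (s, z)) ∧ H57.IsHamFlow Q H' φ' ∧
      ∀ s ∈ Icc (0 : ℝ) 1, ∀ z ∈ Z, φ' s (ι (0, z)) = ι (s, z) := by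
  let _ : MeasurableSpace Γ := borel Γ
  have _ : BorelSpace Γ := ⟨rfl⟩
  set μ : Measure Γ := Measure.haarMeasure (⊤ : TopologicalSpace.PositiveCompacts Γ) with hμ
  have hprob : IsProbabilityMeasure μ := ⟨by
    have h1 := Measure.haarMeasure_self (K₀ := (⊤ : TopologicalSpace.PositiveCompacts Γ))
    exact h1⟩
  -- the action as a continuous map to the operators
  set a : Γ → ((E × E) →L[ℝ] (E × E)) := fun g => act (σ g⁻¹) with ha
  have hac : Continuous a := by
    rw [continuous_clm_apply]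
    intro z
    exact ((hσ z.1).comp continuous_inv).prodMk ((hσ z.2).comp continuous_inv)
  have hFs : ContDiff ℝ ∞ fun x : ((E × E) →L[ℝ] (E × E)) × (ℝ × (E × E)) =>
      H (x.2.1, x.1 x.2.2) :=
    hH.smooth.comp ((contDiff_fst.comp contDiff_snd).prodMk
      (contDiff_fst.clm_apply (contDiff_snd.comp contDiff_snd)))
  have hGs : ∀ s, ContDiff ℝ ∞ fun x : ((E × E) →L[ℝ] (E × E)) × (E × E) => H (s, x.1 x.2) :=
    fun s => hH.smooth.comp (contDiff_const.prodMk (contDiff_fst.clm_apply contDiff_snd))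
  set H' : ℝ × (E × E) → ℝ := fun x => ∫ g, H (x.1, a g x.2) ∂μ with hH'
  have hHs : ContDiff ℝ ∞ H' := contDiff_par μ hac hFs
  obtain ⟨R, hR⟩ := hH.supp
  have hR' : ∀ s, ∀ z ∈ Cot Q, R ≤ ‖z.2‖ → H' (s, z) = 0 := by
    intro s z hz hz2
    have h1 : ∀ g, H (s, a g z) = 0 := by
      intro g
      refine hR s _ (act_Cot (hΓ g⁻¹) hz) ?_
      rw [act_apply]
      simp only [LinearIsometryEquiv.norm_map]
      exact hz2
    simp only [hH', h1, integral_zero]
  have hH1 : H57.IsHam Q H' := ⟨hHs, R, hR'⟩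
  have hH2 : H481.IsHam Q H' := by
    refine ⟨hHs, Q ×ˢ Metric.closedBall (0 : E) R, cQ.prod (isCompact_closedBall _ _),
      fun s z hz hzK => hR' s z (by rwa [← cotangent_eq_Cot]) ?_⟩
    by_contra hcon
    refine hzK ⟨hz.1, ?_⟩
    rw [Metric.mem_closedBall, dist_zero_right]
    exact (not_le.1 hcon).le
  obtain ⟨P, hP⟩ := H481.exists_proj_of_isRet hQ
  obtain ⟨φ', hφ'⟩ := hH2.exists_hflow hQ.isClosed hP
  refine ⟨H', fun s z => φ' (s, z), hH1, ?_, ?_, fun s hs z hz => ?_⟩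
  · intro h s z
    have h1 := integral_mul_left_eq_self (μ := μ) (fun k : Γ => H (s, a k z)) h⁻¹
    have h2 : ∀ g, a (h⁻¹ * g) z = a g (act (σ h) z) := by
      intro g
      simp only [ha]
      rw [mul_inv_rev, inv_inv, map_mul]
      rfl
    simp only [h2] at h1
    exact h1
  · have h1 := hφ'.isFlow hP hHs
    refine ⟨fun z _ => hφ'.zero z, fun z hz s hs => ?_⟩
    rw [← cotangent_eq_Cot] at hz
    obtain ⟨h2, v, h3, h4, h5⟩ := (h1 z hz).2 s hs
    rw [← cotangent_eq_Cot]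
    refine ⟨h2, v, ?_, h3, fun u hu => ?_⟩
    · rw [← tan_eq_Tan]
      exact h4
    · rw [← tan_eq_Tan] at hu
      exact h5 u hu
  · refine (hφ'.uniq (fun s => ι (s, z)) (fun s hs => ?_) s hs).symm
    have hzc : ι (s, z) ∈ cotangent Q := by
      rw [cotangent_eq_Cot]
      exact hmem s z hz
    refine ⟨hzc, ?_⟩
    have hd : ∀ s, HasDerivAt (fun r : ℝ => ι (r, z)) (fderiv ℝ ι (s, z) (1, 0)) s := fun s =>
      (hι.differentiable (by simp) (s, z)).hasFDerivAt.comp_hasDerivAt s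
        ((hasDerivAt_id s).prodMk (hasDerivAt_const _ _))
    have hat : fderiv ℝ ι (s, z) (1, 0) ∈ tan (cotangent Q) (ι (s, z)) := by
      refine ⟨fun t => ι (s + t, z), hι.comp ((contDiff_const.add contDiff_id).prodMk
        contDiff_const), fun t => ?_, by simp, ?_⟩
      · rw [cotangent_eq_Cot]
        exact hmem _ z hz
      · have h1 : HasDerivAt (fun t : ℝ => s + t) 1 0 := (hasDerivAt_id (0 : ℝ)).const_add s
        have h2 := hd s
        rw [← add_zero s] at h2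
        have h3 := h2.scomp (0 : ℝ) h1
        simpa [Function.comp_def] using h3
    set w : E × E := fderiv ℝ ι (s, z) (1, 0) with hw
    -- the equation for each element of the group
    have hone : ∀ g : Γ, ∀ u ∈ tan (cotangent Q) (ι (s, z)),
        H57.om w u = -fderiv ℝ (fun y => H (s, act (σ g) y)) (ι (s, z)) u := by
      intro g u hu
      obtain ⟨hgz, -⟩ := heq g 0 z hz
      obtain ⟨-, hfl⟩ := hφ
      obtain ⟨-, wg, -, hwg, hom⟩ := hfl _ (hmem 0 _ hgz) s hs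
      have e1 : φ s (ι (0, act (σ g) z)) = act (σ g) (ι (s, z)) := by
        rw [hφι s hs _ hgz, (heq g s z hz).2]
      have e2 : HasDerivWithinAt (fun r => φ r (ι (0, act (σ g) z))) (act (σ g) w)
          (Icc 0 1) s := by
        have e3 : HasDerivAt (fun r => act (σ g) (ι (r, z))) (act (σ g) w) s :=
          (act (σ g)).hasFDerivAt.comp_hasDerivAt s (hd s)
        refine e3.hasDerivWithinAt.congr (fun t ht => ?_) e1
        rw [hφι t ht _ hgz, (heq g t z hz).2]
      have e4 := (uniqueDiffOn_Icc (zero_lt_one' ℝ) s hs).eq_deriv _ hwg e2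
      rw [e1, e4] at hom
      have e5 : act (σ g) u ∈ Tan (Cot Q) (act (σ g) (ι (s, z))) := by
        refine act_Tan (fun x hx => act_Cot (hΓ g) hx) ?_
        rwa [tan_eq_Tan, cotangent_eq_Cot] at hu
      have e6 := hom _ e5
      rw [act_om] at e6
      rw [e6]
      have e7 : HasFDerivAt (fun y => H (s, y)) (fderiv ℝ (fun y => H (s, y))
          (act (σ g) (ι (s, z)))) (act (σ g) (ι (s, z))) :=
        ((hH.smooth.comp (contDiff_const.prodMk contDiff_id)).differentiable (by simp) _).hasFDerivAt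
      have e8 := e7.comp (ι (s, z)) (act (σ g)).hasFDerivAt
      have e9 : fderiv ℝ (fun y => H (s, act (σ g) y)) (ι (s, z)) =
        (fderiv ℝ (fun y => H (s, y)) (act (σ g) (ι (s, z)))).comp (act (σ g)) := e8.fderiv
      rw [e9]
      rfl
    have hall : ∀ u ∈ tan (cotangent Q) (ι (s, z)),
        H57.om w u = -fderiv ℝ (fun y => H' (s, y)) (ι (s, z)) u := by
      intro u hu
      have e1 : fderiv ℝ (fun y => H' (s, y)) (ι (s, z)) u = _ :=
        fderiv_par μ (hGs s) hac (ι (s, z)) u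
      rw [e1]
      have e2 : ∀ g : Γ, fderiv ℝ (fun x : ((E × E) →L[ℝ] (E × E)) × (E × E) =>
          H (s, x.1 x.2)) (a g, ι (s, z)) (0, u) = -H57.om w u := by
        intro g
        rw [hone g⁻¹ u hu, neg_neg]
        have e3 : HasFDerivAt (fun x : ((E × E) →L[ℝ] (E × E)) × (E × E) => H (s, x.1 x.2)) _
          (a g, ι (s, z)) := ((hGs s).differentiable (by simp) _).hasFDerivAt
        have e4 := (e3.comp (ι (s, z)) (hasFDerivAt_prodMk_right (a g) (ι (s, z)))).fderiv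
        have e5 := congrArg (fun L => L u) e4
        exact e5.symm
      simp only [e2, integral_const, probReal_univ, one_smul, neg_neg]
    have heq2 : w = vf P (ι (s, z)) (dH H' (s, ι (s, z))) := by
      refine sub_eq_zero.1 (hP.nondeg hzc (H481.tan_sub_cotangent hP hzc ?_ hat (hP.vf_tan hzc _))
        fun u hu => ?_)
      · intro a ha b hb
        rw [tan_eq_Tan, hQ.mem_Tan hzc.1] at ha hb ⊢
        exact (Tn r _).sub_mem ha hb
      · rw [om_sub_left, hP.vf_om hzc _ hu, ← dH_eq hHs, sub_neg_eq_add]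
        have h1 := hall u hu
        have h2 : H481.om w u = H57.om w u := rfl
        rw [h2, h1]
        ring
    rw [← heq2]
    exact (hd s).hasDerivWithinAt

end Vale.Agent.P220.R2.H180.T
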