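import Vale.Agent.P220.R2.H180.T.Split

/-!
# The doubly symmetric parametrization of the slice
-/

open Set Filter Topology
open scoped ContDiff

set_option linter.unusedSectionVars false

namespace Vale.Agent.P220.R2.H180.T

open H57

variable {E : Type} [NormedAddCommGroup E] [InnerProductSpace ℝ E] [FiniteDimensional ℝ E]

/-! ### the other reflection -/

section

variable {e u v₀ : E} {D : Base E} (Λ : D.Leaf) (hQ : D.Q = Circ e u)
  (hX : ∀ q ∈ Circ e u, D.X q = XF e u q) (hS : ∀ z ∈ D.L, SS v₀ z ∈ D.L)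
  (hXF : ∀ x, XF e u (Refl v₀ x) = -Refl v₀ (XF e u x))

include hQ hX hS hXF

theorem h_SSv {z : E × E} (hz : z ∈ D.L) : D.h (SS v₀ z) = -D.h z := by
  have h1 : z.1 ∈ Circ e u := hQ ▸ D.sub z hz
  have h2 : (SS v₀ z).1 ∈ Circ e u := hQ ▸ D.sub _ (hS z hz)
  unfold Base.h
  rw [hX _ h1, hX _ h2]
  change (inner ℝ (Refl v₀ z.2) (XF e u (Refl v₀ z.1)) : ℝ) = _
  rw [hXF, inner_neg_right, (Refl v₀).inner_map_map]

theorem lf_SSv {z : E × E} (hz : z ∈ D.L) : D.Lf (SS v₀ z) (-Λ.u z) (SS v₀ (Λ.Z z)) := by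
  have h1 : z.1 ∈ Circ e u := hQ ▸ D.sub z hz
  have h2 : (SS v₀ z).1 ∈ Circ e u := hQ ▸ D.sub _ (hS z hz)
  have hZ := Λ.Z_tan hz
  rw [← D.hL.mem_Tan hz] at hZ
  obtain ⟨c, hc, hcS, h0, hdc⟩ := hZ
  have h3 : HasDerivAt c (Λ.Z z) 0 := by
    rw [← hdc]
    exact (hc.differentiable (by simp) 0).hasDerivAt
  have h4 : HasDerivAt (fun t => SS v₀ (c t)) (SS v₀ (Λ.Z z)) 0 :=
    (SS v₀).hasFDerivAt.comp_hasDerivAt (0 : ℝ) h3
  refine ⟨?_, ?_, ?_⟩
  · have := D.hL.curve_tangent (Eventually.of_forall fun t => hS _ (hcS t)) h4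
    rwa [h0] at this
  · change Refl v₀ (Λ.Z z).1 = (-(Λ.u z).1) • D.X (SS v₀ z).1
    rw [Λ.Z_fst hz, map_smul, hX _ h1, hX _ h2]
    change (Λ.u z).1 • Refl v₀ (XF e u z.1) = (-(Λ.u z).1) • XF e u (Refl v₀ z.1)
    rw [hXF]
    module
  · have hh : ∀ y, HasFDerivAt D.h (fderiv ℝ D.h y) y := fun y =>
      (D.h_smooth.differentiable (by simp) y).hasFDerivAt
    have h5 : HasDerivAt (fun t => D.h (SS v₀ (c t))) (fderiv ℝ D.h (SS v₀ (c 0)) (SS v₀ (Λ.Z z))) 0 :=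
      (hh _).comp_hasDerivAt (0 : ℝ) h4
    have h6 : HasDerivAt (fun t => D.h (c t)) (fderiv ℝ D.h (c 0) (Λ.Z z)) 0 :=
      (hh _).comp_hasDerivAt (0 : ℝ) h3
    have h7 : (fun t => D.h (SS v₀ (c t))) = fun t => -D.h (c t) := by
      funext t
      exact h_SSv hQ hX hS hXF (hcS t)
    rw [h7] at h5
    have h8 := h5.unique h6.neg
    rw [h0, Λ.Z_h hz] at h8
    exact h8

/-- the sign -/
theorem pm_SSv {z : E × E} (hz : z ∈ D.L) :
    (Λ.u (SS v₀ z) = Λ.u z ∧ SS v₀ (Λ.Z z) = -Λ.Z (SS v₀ z)) ∨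
      (Λ.u (SS v₀ z) = -Λ.u z ∧ SS v₀ (Λ.Z z) = Λ.Z (SS v₀ z)) := by
  have hSz := hS z hz
  obtain ⟨c, hc, hc'⟩ := (Λ.lf _ hSz).prop hSz (lf_SSv Λ hQ hX hS hXF hz) (Λ.unit _ hSz)
  have h1 := Λ.unit z hz
  have h2 := Λ.unit _ hSz
  have h3 : -(Λ.u z).1 = c * (Λ.u (SS v₀ z)).1 := congrArg Prod.fst hc
  have h4 : -(Λ.u z).2 = c * (Λ.u (SS v₀ z)).2 := congrArg Prod.snd hc
  have h5 : c ^ 2 = 1 ^ 2 := by
    have : (c * (Λ.u (SS v₀ z)).1) ^ 2 + (c * (Λ.u (SS v₀ z)).2) ^ 2 = 1 := by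
      rw [← h3, ← h4]
      linarith
    nlinarith
  rcases sq_eq_sq_iff_eq_or_eq_neg.1 h5 with h6 | h6
  · right
    subst h6
    rw [one_smul] at hc hc'
    exact ⟨hc.symm, hc'⟩
  · left
    subst h6
    rw [neg_smul, one_smul, neg_inj] at hc
    rw [neg_smul, one_smul] at hc'
    exact ⟨hc.symm, hc'⟩

/-- the reflection reverses the leafwise flow -/
theorem neg_SSv {z : E × E} (hz : z ∈ D.L) :
    Λ.u (SS v₀ z) = Λ.u z ∧ SS v₀ (Λ.Z z) = -Λ.Z (SS v₀ z) := by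
  rcases pm_SSv Λ hQ hX hS hXF hz with h1 | h1
  · exact h1
  exfalso
  -- the sign is constant on the orbit
  set w : ℝ → ℝ := fun σ => (Λ.u (SS v₀ (Λ.ζ σ z))).1 * (Λ.u (Λ.ζ σ z)).1 +
    (Λ.u (SS v₀ (Λ.ζ σ z))).2 * (Λ.u (Λ.ζ σ z)).2 with hw
  have hζc : Continuous fun σ => Λ.ζ σ z :=
    Λ.cont_ζ.comp (continuous_id.prodMk continuous_const)
  have hwc : Continuous w := by
    have h2 : Continuous fun σ => Λ.u (Λ.ζ σ z) := Λ.cont_u.comp hζc
    have h3 : Continuous fun σ => Λ.u (SS v₀ (Λ.ζ σ z)) :=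
      Λ.cont_u.comp ((SS v₀).continuous.comp hζc)
    exact ((continuous_fst.comp h3).mul (continuous_fst.comp h2)).add
      ((continuous_snd.comp h3).mul (continuous_snd.comp h2))
  have hwpm : ∀ σ, (w σ = 1 ∧ Λ.u (SS v₀ (Λ.ζ σ z)) = Λ.u (Λ.ζ σ z)) ∨
      (w σ = -1 ∧ Λ.u (SS v₀ (Λ.ζ σ z)) = -Λ.u (Λ.ζ σ z) ∧
        SS v₀ (Λ.Z (Λ.ζ σ z)) = Λ.Z (SS v₀ (Λ.ζ σ z))) := by
    intro σ
    have hm := Λ.ζ_mem hz σ
    have hu := Λ.unit _ hm
    rcases pm_SSv Λ hQ hX hS hXF hm with h2 | h2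
    · left
      refine ⟨?_, h2.1⟩
      simp only [hw, h2.1]
      linarith
    · right
      refine ⟨?_, h2⟩
      simp only [hw, h2.1, Prod.fst_neg, Prod.snd_neg]
      linarith
  have hw0 : w 0 = -1 := by
    have hu := Λ.unit _ hz
    simp only [hw, Λ.hζ.zero, h1.1, Prod.fst_neg, Prod.snd_neg]
    linarith
  have hwall : ∀ σ, Λ.u (SS v₀ (Λ.ζ σ z)) = -Λ.u (Λ.ζ σ z) ∧
        SS v₀ (Λ.Z (Λ.ζ σ z)) = Λ.Z (SS v₀ (Λ.ζ σ z)) := by
    intro σ
    rcases hwpm σ with h2 | h2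
    · exfalso
      have hiv := intermediate_value_uIcc (a := 0) (b := σ) hwc.continuousOn
      have hmem : (0 : ℝ) ∈ uIcc (w 0) (w σ) := by
        rw [hw0, h2.1, uIcc_of_le (by norm_num)]
        constructor <;> norm_num
      obtain ⟨t, -, ht⟩ := hiv hmem
      rcases hwpm t with h3 | h3
      · rw [ht] at h3
        exact zero_ne_one h3.1
      · rw [ht] at h3
        norm_num at h3
    · exact h2.2
  have hflow : ∀ σ, SS v₀ (Λ.ζ σ z) = Λ.ζ σ (SS v₀ z) := by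
    intro σ
    have h2 := Λ.hζ.uniq (fun σ => SS v₀ (Λ.ζ σ z)) (fun t => by
      have h3 : HasDerivAt (fun σ => SS v₀ (Λ.ζ σ z)) (SS v₀ (Λ.Z (Λ.ζ t z))) t :=
        (SS v₀).hasFDerivAt.comp_hasDerivAt t (Λ.hζ.deriv t z)
      rw [(hwall t).2] at h3
      exact h3) σ
    simp only [Λ.hζ.zero] at h2
    exact h2
  have hT : ∀ σ, Λ.T σ (SS v₀ z) = -Λ.T σ z := by
    intro σ
    unfold Base.Leaf.T
    rw [← intervalIntegral.integral_neg]
    refine intervalIntegral.integral_congr fun s _ => ?_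
    rw [← hflow, (hwall s).1]
    rfl
  obtain ⟨S, hS0, hdrift⟩ := Λ.drift
  have h2 := hdrift z hz S le_rfl
  have h3 := hdrift _ (hS z hz) S le_rfl
  rw [hT] at h3
  linarith

theorem flow_SSv {z : E × E} (hz : z ∈ D.L) (σ : ℝ) : SS v₀ (Λ.ζ σ z) = Λ.ζ (-σ) (SS v₀ z) := by
  have h2 := Λ.hζ.uniq (fun σ => SS v₀ (Λ.ζ (-σ) z)) (fun t => by
    have h4 : HasDerivAt (fun σ => Λ.ζ (-σ) z) ((-1 : ℝ) • Λ.Z (Λ.ζ (-t) z)) t :=
      (Λ.hζ.deriv (-t) z).scomp t (hasDerivAt_neg t)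
    have h3 : HasDerivAt (fun σ => SS v₀ (Λ.ζ (-σ) z)) (SS v₀ ((-1 : ℝ) • Λ.Z (Λ.ζ (-t) z))) t :=
      (SS v₀).hasFDerivAt.comp_hasDerivAt t h4
    rw [map_smul, (neg_SSv Λ hQ hX hS hXF (Λ.ζ_mem hz (-t))).2, neg_smul, one_smul, neg_neg] at h3
    exact h3) (-σ)
  simp only [neg_neg, neg_zero, Λ.hζ.zero] at h2
  exact h2

end

theorem XF_Refl_e {e u : E} (h : Orth e u) (x : E) :
    XF e u (Refl e x) = -Refl e (XF e u x) := by
  rw [Refl_apply h.v1 (XF e u x), Refl_apply h.v1 x]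
  unfold XF
  simp only [inner_sub_right, inner_smul_right, h.vv, h.wv, h.vw]
  module

theorem Refl_self {e : E} (he : ‖e‖ = 1) : Refl e e = -e := by
  rw [Refl_apply he, e_e he]
  module

section

variable {e u : E} (h : Orth e u) {D : Base E} (Λ : D.Leaf) (hQ : D.Q = Circ e u)
  (hX : ∀ q ∈ Circ e u, D.X q = XF e u q) (hS : ∀ z ∈ D.L, SS u z ∈ D.L)
  (hS' : ∀ z ∈ D.L, SS e z ∈ D.L)

include h hQ hX hS hS' Λ

/-- **The symmetric parametrization.** -/
theorem exists_curve : ∃ γ, IsCurve e u D.L γ ∧ ∀ t, SS e (γ t) = γ (Real.pi - t) := by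
  have hp := pole_mem h Λ hQ hX hS
  set p : E × E := (e, 0) with hpdef
  have hec := h.e_circ
  have hφ : ∀ q ∈ Circ e u, ∀ t, D.φ t q = Real.cos t • q + Real.sin t • XF e u q :=
    fun q hq t => h.flow D.hφ hX hq t
  have hSp : SS u p = p := by
    rw [hpdef, SS_apply]
    simp only [h.Refl_e, map_zero]
  -- the period
  obtain ⟨P, hP, hTP⟩ := Λ.one_leaf hp hp (t := 2 * Real.pi) (by
    rw [hφ _ hec, Real.cos_two_pi, Real.sin_two_pi, one_smul, zero_smul, add_zero])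
  have hP0 : P ≠ 0 := by
    rintro rfl
    rw [Λ.T_zero] at hTP
    have := Real.pi_pos
    linarith
  have hper : Function.Periodic (fun σ => Λ.ζ σ p) P := by
    intro σ
    beta_reduce
    rw [Λ.hζ.add, hP]
  have hTper : Function.Periodic (fun σ => Λ.T σ p - σ * (2 * Real.pi / P)) P := by
    intro σ
    beta_reduce
    rw [Λ.T_add hp, hTP, hP]
    field_simp
    ring
  have hTk : ∀ k : ℤ, Λ.T (k * P) p = k * (2 * Real.pi) := by
    intro k
    have h1 := hTper.int_mul k 0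
    beta_reduce at h1
    rw [zero_add, Λ.T_zero, zero_mul, sub_zero] at h1
    have h2 : (k * P) * (2 * Real.pi / P) = k * (2 * Real.pi) := by field_simp
    rw [h2] at h1
    linarith
  have hζk : ∀ k : ℤ, Λ.ζ (k * P) p = p := by
    intro k
    have h1 := hper.int_mul k 0
    beta_reduce at h1
    rwa [zero_add, Λ.hζ.zero] at h1
  -- returns
  have hret : ∀ σ, Λ.ζ σ p = p → ∃ k : ℤ, σ = k * P := by
    intro σ hσ
    have h1 := Λ.base hp σ
    rw [hσ, hφ _ hec] at h1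
    have h2 := congrArg (fun x => (inner ℝ e x : ℝ)) h1
    have hpe : p.1 = e := rfl
    rw [hpe, h.XF_e] at h2
    simp only [inner_add_right, inner_smul_right, h.vv, h.vw, mul_one, mul_zero, add_zero] at h2
    obtain ⟨k, hk⟩ := (Real.cos_eq_one_iff _).1 h2.symm
    refine ⟨k, ?_⟩
    by_contra hne
    have h3 : σ - k * P ≠ 0 := sub_ne_zero.2 hne
    have h4 := Λ.T_add hp (σ - k * P) (k * P)
    rw [sub_add_cancel, hTk, hζk, ← hk] at h4
    have h5 : Λ.T (σ - k * P) p = 0 := by linarith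
    refine Λ.no_return hp h3 h5 ?_
    have h6 : Λ.ζ (σ - k * P) p = p := by
      have h7 := Λ.hζ.add (σ - k * P) (k * P) p
      rw [sub_add_cancel, hζk, hσ] at h7
      exact h7.symm
    rw [h6]
  set a : ℝ := P / (2 * Real.pi) with ha
  have hpi : (2 * Real.pi) ≠ 0 := by positivity
  have ha0 : a ≠ 0 := div_ne_zero hP0 hpi
  have ha2 : a * (2 * Real.pi) = P := by rw [ha]; field_simp
  have hZne : ∀ z ∈ D.L, Λ.Z z ≠ 0 := by
    intro z hz h0
    have h1 := Λ.Z_fst hz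
    have h2 := Λ.Z_h hz
    rw [h0] at h1 h2
    rw [map_zero] at h2
    have h3 : D.X z.1 ≠ 0 := by
      obtain ⟨a1, a2, -, -⟩ := leaf_in h hQ hX hS hz
      rw [hX _ (hQ ▸ D.sub z hz)]
      exact h.XF_ne a2 a1
    have h4 : (Λ.u z).1 = 0 := by
      have h5 : (0 : E) = (Λ.u z).1 • D.X z.1 := h1
      exact (smul_eq_zero.1 h5.symm).resolve_right h3
    have h5 := Λ.unit z hz
    rw [h4, ← h2] at h5
    norm_num at h5
  have hd : ∀ t, HasDerivAt (fun t => Λ.ζ (a * t) p) (a • Λ.Z (Λ.ζ (a * t) p)) t := by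
    intro t
    have h1 : HasDerivAt (fun t : ℝ => a * t) a t := by simpa using (hasDerivAt_id t).const_mul a
    exact (Λ.hζ.deriv (a * t) p).scomp t h1
  have hγ : IsCurve e u D.L fun t => Λ.ζ (a * t) p := by
    refine ⟨?_, ?_, ?_, ?_, ?_, ?_, ?_, ?_, ?_⟩
    · exact Λ.hζ.smooth.comp ((contDiff_const.mul contDiff_id).prodMk contDiff_const)
    · intro t
      rw [(hd t).deriv]
      exact smul_ne_zero ha0 (hZne _ (Λ.ζ_mem hp _))
    · intro t
      exact Λ.ζ_mem hp _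
    · intro z hz
      obtain ⟨a1, a2, -, -⟩ := leaf_in h hQ hX hS hz
      have h1 := h.sq_sum a2
      rw [a1] at h1
      set w : ℂ := ⟨inner ℝ e z.1, inner ℝ u z.1⟩ with hw
      have hn : ‖w‖ = 1 := by
        rw [← sq_eq_sq₀ (norm_nonneg _) zero_le_one, ← Complex.normSq_eq_norm_sq,
          Complex.normSq_apply]
        simp only [hw]
        linarith
      have hw0 : w ≠ 0 := by
        intro h4
        rw [h4, norm_zero] at hn
        exact zero_ne_one hn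
      obtain ⟨σ, hσ, -⟩ := Λ.one_leaf hp hz (t := Complex.arg w) (by
        rw [hφ _ hec, h.XF_e, Complex.cos_arg hw0, Complex.sin_arg, hn, div_one, div_one]
        exact a2)
      refine ⟨σ / a, ?_⟩
      beta_reduce
      rw [mul_div_cancel₀ _ ha0, hσ]
    · intro t
      beta_reduce
      rw [flow_SS h Λ hQ hX hS hp, hSp]
      congr 1
      ring
    · intro t
      beta_reduce
      rw [mul_add, ha2]
      exact hper _
    · intro t t' ht
      beta_reduce at ht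
      obtain ⟨k, hk⟩ := hret (a * t - a * t') (by
        rw [sub_eq_neg_add, Λ.hζ.add, ht, Λ.hζ.neg_left])
      refine ⟨k, ?_⟩
      have h1 : a * (t - t') = a * (k * (2 * Real.pi)) := by
        rw [mul_sub, hk, ← ha2]
        ring
      exact mul_left_cancel₀ ha0 h1
    · beta_reduce
      rw [mul_zero, Λ.hζ.zero]
    · beta_reduce
      have h1 : a * Real.pi = P / 2 := by rw [ha]; field_simp
      rw [h1]
      set y := Λ.ζ (P / 2) p with hy
      have hyL : y ∈ D.L := Λ.ζ_mem hp _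
      have hSy : SS u y = y := by
        rw [hy, flow_SS h Λ hQ hX hS hp, hSp]
        have h2 := hper (-(P / 2))
        beta_reduce at h2
        rw [← h2]
        congr 1
        ring
      obtain ⟨a1, a2, a3, a4⟩ := leaf_in h hQ hX hS hyL
      rcases h.fix_pole a1 a2 a3 a4 hSy with h6 | h6
      · exfalso
        obtain ⟨k, hk⟩ := hret (P / 2) h6
        have h7 : P * (1 - 2 * (k : ℝ)) = 0 := by linarith
        rcases mul_eq_zero.1 h7 with h8 | h8
        · exact hP0 h8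
        · have h9 : (1 : ℤ) = 2 * k := by
            have : (1 : ℝ) = 2 * (k : ℝ) := by linarith
            exact_mod_cast this
          omega
      · exact h6
  refine ⟨_, hγ, fun t => ?_⟩
  have h1 := hγ.pi
  beta_reduce at h1 ⊢
  rw [flow_SSv Λ hQ hX hS' (XF_Refl_e h) hp]
  have h2 : SS e p = (-e, 0) := by
    rw [hpdef, SS_apply]
    simp only [Refl_self h.v1, map_zero]
  rw [h2, ← h1, ← Λ.hζ.add]
  congr 1
  ring

end

end Vale.Agent.P220.R2.H180.T
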