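import Vale.Agent.P220.R2.H180.T.Sym

/-!
# The equivariant isotopy
-/

open Set Filter Topology
open scoped ContDiff

set_option linter.unusedSectionVars false

namespace Vale.Agent.P220.R2.H180.T

open H57

variable {E : Type} [NormedAddCommGroup E] [InnerProductSpace ℝ E] [FiniteDimensional ℝ E]

/-- the constant isotopy of the zero section -/
theorem isIso_zero (C : (E ≃ₗᵢ[ℝ] E) → Prop) : IsIso C (Zs E) (fun p => p.2) := by
  refine ⟨contDiff_snd, fun s z hz => ?_, fun z hz => rfl, fun w => ⟨fun hw => ⟨w, hw, rfl⟩, ?_⟩,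
    fun g _ s z _ => rfl, fun _ => 0, fun _ z => z, ⟨contDiff_const, 0, fun _ _ _ _ => rfl⟩,
    ⟨fun _ _ => rfl, fun z hz s hs => ⟨hz, 0, ?_, hasDerivWithinAt_const _ _ _, fun u _ => ?_⟩⟩,
    fun s _ z _ => rfl⟩
  · refine cot_sph.2 ⟨mem_Sph.1 hz.1, ?_⟩
    rw [hz.2, inner_zero_right]
  · rintro ⟨z, hz, rfl⟩
    exact hz
  · exact ⟨fun _ => z, contDiff_const, fun _ => hz, rfl, by simp⟩
  · simp [om]

/-- **The isotopy, equivariant under a group.** -/
theorem exists_isIso {n : ℕ} (hn : Module.finrank ℝ E = n + 1) (h2 : 2 ≤ n) (K : Submodule ℝ E)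
    {L : Set (E × E)} (hL : IsClosedExactLagrangian n (Sph E) L)
    (hM : Mom K.starProjection L) (hM' : Mom Kᗮ.starProjection L)
    {Γ : Type} [Group Γ] (σ : Γ →* (E ≃ₗᵢ[ℝ] E)) (hΓK : ∀ g, ∀ x ∈ K, σ g x ∈ K)
    (hΓL : ∀ g, ∀ z ∈ L, (σ g z.1, σ g z.2) ∈ L) :
    ∃ (C : (E ≃ₗᵢ[ℝ] E) → Prop) (ι : ℝ × (E × E) → E × E), IsIso C L ι ∧ ∀ g, C (σ g) := by
  have hKK := K.orthogonal_orthogonal
  have hline : ∀ M : Submodule ℝ E, Module.finrank ℝ M = 1 → Mom M.starProjection L →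
      Mom Mᗮ.starProjection L → (∀ g, ∀ x ∈ M, σ g x ∈ M) →
      ∃ (C : (E ≃ₗᵢ[ℝ] E) → Prop) (ι : ℝ × (E × E) → E × E), IsIso C L ι ∧ ∀ g, C (σ g) := by
    intro M hM1 hM hM' hΓM
    have hfr := M.finrank_add_finrank_orthogonal
    have hMM := M.orthogonal_orthogonal
    obtain ⟨e, heM, he⟩ := exists_unit (K := M) (by omega)
    have hsp := line_span hM1 heM he
    have h5 : ∀ g : E ≃ₗᵢ[ℝ] E, (∀ x ∈ M, g x = x) → ∀ z ∈ L, (g z.1, g z.2) ∈ L := fun g hg =>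
      inv_sub hn hL Mᗮ hM' (by omega) g (fun x hx => hg x (by rwa [hMM] at hx))
    by_cases hflip : ∃ γ, σ γ e ≠ e
    · obtain ⟨γ, hγ⟩ := hflip
      obtain ⟨ι, hι⟩ := core_sub M (by omega) (by omega) hn hL hM hM'
        (inv_line hM1 (hΓM γ) heM he hγ (hΓL γ) h5) h5
      exact ⟨_, ι, hι, fun g => (comm_proj hΓM g).2⟩
    · push Not at hflip
      obtain ⟨ι, hι⟩ := main_iso hn h2 he hL (fun g hg hd z hz => h5 g (fun x hx => by
        obtain ⟨k, rfl⟩ := hsp x hx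
        rw [map_smul, hg]) z hz)
      exact ⟨_, ι, hι, hflip⟩
  rcases Nat.lt_or_ge (Module.finrank ℝ K) 2 with hK | hK
  · rcases Nat.eq_zero_or_pos (Module.finrank ℝ K) with hK0 | hK0
    · have h3 : Kᗮᗮ = ⊥ := by
        rw [hKK]
        exact Submodule.finrank_eq_zero.1 hK0
      rw [eq_Zs hn (by omega) hL h3 hM']
      exact ⟨fun _ => True, _, isIso_zero _, fun _ => trivial⟩
    · exact hline K (by omega) hM hM' hΓK
  rcases Nat.lt_or_ge (Module.finrank ℝ Kᗮ) 2 with hK' | hK'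
  · rcases Nat.eq_zero_or_pos (Module.finrank ℝ Kᗮ) with hK0 | hK0
    · rw [eq_Zs hn (by omega) hL (Submodule.finrank_eq_zero.1 hK0) hM]
      exact ⟨fun _ => True, _, isIso_zero _, fun _ => trivial⟩
    · exact hline Kᗮ (by omega) hM'
        (cast_sub (p := fun P => Mom P L) K.orthogonal_orthogonal.symm hM)
        (fun g => (comm_proj hΓK g).1)
  obtain ⟨ι, hι⟩ := core_sub K (by omega) (by omega) hn hL hM hM' (inv_sub hn hL K hM hK)
    (fun g hg => inv_sub hn hL Kᗮ hM' hK' g (fun x hx => hg x (by rwa [hKK] at hx)))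
  exact ⟨_, ι, hι, fun g => (comm_proj hΓK g).2⟩

end Vale.Agent.P220.R2.H180.T
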