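import Vale.Agent.P220.R2.H180.T.Ham
import Vale.Agent.P220.R2.H180.Main

/-!
# The isotopy in the case of one axis
-/

open Set Filter Topology
open scoped ContDiff

set_option linter.unusedSectionVars false

namespace Vale.Agent.P220.R2.H180

open H57
open T (IsIso act act_apply)

variable {E : Type} [NormedAddCommGroup E] [InnerProductSpace ℝ E] [FiniteDimensional ℝ E]

theorem iso_equiv_one {e : E} (G : ℝ → ℝ) (C b : ℝ × ℝ → ℂ) {g : E ≃ₗᵢ[ℝ] E} (hg : g e = e)
    (s : ℝ) (z : E × E) : iso e G C b (s, act g z) = act g (iso e G C b (s, z)) := by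
  have h0 : ∀ x, (inner ℝ e (g x) : ℝ) = inner ℝ e x := fun x => by
    conv_lhs => rw [← hg]
    exact g.inner_map_map _ _
  have h1 : ∀ x, pr e (g x) = g (pr e x) := fun x => by
    unfold pr
    rw [h0, map_sub, map_smul, hg]
  have h2 : ∀ x, tau e (g x) = tau e x := fun x => by
    unfold tau
    rw [h0]
  have ha : xa e C b (s, act g z) = g (xa e C b (s, z)) := by
    unfold xa
    simp only [act_apply, h1, h2, hg, map_add, map_smul]
  have hy : xy e C b (s, act g z) = g (xy e C b (s, z)) := by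
    unfold xy
    simp only [act_apply, h1, h2, hg, map_add, map_smul]
  unfold iso
  rw [ha, hy, act_apply]
  simp only [LinearIsometryEquiv.norm_map, map_smul]

/-- **The isotopy of the zero section to the Lagrangian over an arc.** -/
theorem arc_iso_one {e : E} (he : ‖e‖ = 1) {u₀ : E} (hu₀ : ‖u₀‖ = 1) (heu₀ : inner ℝ e u₀ = (0 : ℝ))
    {c : ℝ → ℂ} (hc : IsArc c) {L : Set (E × E)}
    (hL : ∀ z, z ∈ L ↔ ‖z.1‖ = 1 ∧ inner ℝ z.1 z.2 = (0 : ℝ) ∧
      (∃ u, ‖u‖ = 1 ∧ inner ℝ e u = (0 : ℝ) ∧ InPl e u z.1 ∧ InPl e u z.2) ∧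
      ∃ τ ∈ Icc (0 : ℝ) 1, c τ = wt e z) : ∃ ι, IsIso (fun g => g e = e) L ι := by
  obtain ⟨C, b, hF⟩ := hc.exists_fam
  obtain ⟨G, hG, hG1⟩ := exists_invsqrt
  obtain ⟨UQ, r, hr⟩ := exists_sph_ret (E := E)
  obtain ⟨UK, ρ, hρ, hTn⟩ := exists_Zs_ret (E := E)
  have hC := hF.hC
  have hb := hF.hb
  have cQ : IsCompact (Sph E) := isCompact_sphere _ _
  have cK : IsCompact (Zs E) := by
    have : Zs E = Sph E ×ˢ {0} := rfl
    rw [this]
    exact cQ.prod isCompact_singleton
  have ee := e_e he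
  have hpt : ∀ s, ∀ z ∈ Zs E, Pt e C b s z := fun s z hz => hF.pt he s (mem_Sph.1 hz.1)
  obtain ⟨H, φ, hH, hφ, hφι⟩ := H481.ham_ext hr cQ hρ cK (iso_smooth (e := e) hG hC hb)
    (fun s z hz => cot_sph.2 ⟨(hpt s z hz).norm hG1, (hpt s z hz).orth⟩)
    (fun s z hz z' hz' h => by
      have p := hpt s z hz
      have p' := hpt s z' hz'
      have hy : xy e C b (s, z) = xy e C b (s, z') := congrArg Prod.snd h
      have ha : xa e C b (s, z) = xa e C b (s, z') := by
        rw [p.inv hG1, p'.inv hG1, h]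
      have h1 : C (s, tau e z.1) = C (s, tau e z'.1) := by
        apply Complex.ext
        · rw [← p.ea, ← p'.ea, ha]
        · rw [← p.ey, ← p'.ey, hy]
      have hq := mem_Sph.1 hz.1
      have hq' := mem_Sph.1 hz'.1
      have h2 := hF.inj s _ (tau_mem he hq) _ (tau_mem he hq') h1
      have hbn := hF.bne s _ (tau_mem he hq)
      have ha2 : (b (s, tau e z.1)).re • pr e z.1 = (b (s, tau e z.1)).re • pr e z'.1 := by
        have e1 : xa e C b (s, z) = (C (s, tau e z.1)).re • e + (b (s, tau e z.1)).re • pr e z.1 := rfl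
        have e2 : xa e C b (s, z') = (C (s, tau e z'.1)).re • e +
          (b (s, tau e z'.1)).re • pr e z'.1 := rfl
        rw [e1, e2, ← h2] at ha
        exact add_left_cancel ha
      have hy2 : (b (s, tau e z.1)).im • pr e z.1 = (b (s, tau e z.1)).im • pr e z'.1 := by
        have e1 : xy e C b (s, z) = (C (s, tau e z.1)).im • e + (b (s, tau e z.1)).im • pr e z.1 := rfl
        have e2 : xy e C b (s, z') = (C (s, tau e z'.1)).im • e +
          (b (s, tau e z'.1)).im • pr e z'.1 := rfl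
        rw [e1, e2, ← h2] at hy
        exact add_left_cancel hy
      have h3 : pr e z.1 = pr e z'.1 := by
        by_cases h4 : (b (s, tau e z.1)).re = 0
        · have h5 : (b (s, tau e z.1)).im ≠ 0 := fun h5 => hbn (Complex.ext h4 h5)
          exact smul_right_injective E h5 hy2
        · exact smul_right_injective E h4 ha2
      have h4 : z.1 = z'.1 := by
        rw [decomp e z.1, decomp e z'.1, h2, h3]
      exact Prod.ext h4 (by rw [hz.2, hz'.2]))
    (fun s z hz v hv h => by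
      obtain ⟨hv2, hv1⟩ := hTn z hz v hv
      have hq := mem_Sph.1 hz.1
      have hy : fderiv ℝ (xy e C b) (s, z) (0, v) = 0 := by
        rw [← diso_snd hG hC hb, h]
        rfl
      obtain ⟨k, hk, hk2⟩ := diso_fst (e := e) hG hC hb s z v
      have hGne : G (1 + ‖xy e C b (s, z)‖ ^ 2) ≠ 0 := by
        rw [(hpt s z hz).Gval hG1]
        exact inv_ne_zero (Real.sqrt_pos.2 (by positivity)).ne'
      have ha : fderiv ℝ (xa e C b) (s, z) (0, v) = 0 := by
        rw [h, hk hy, zero_smul, zero_add] at hk2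
        exact (smul_eq_zero.1 hk2.symm).resolve_left hGne
      have ep := e_pr he z.1
      have ev := e_pr he v.1
      rw [dxa hC hb] at ha
      rw [dxy hC hb] at hy
      have h1 := congrArg (fun x => (inner ℝ e x : ℝ)) ha
      have h2 := congrArg (fun x => (inner ℝ e x : ℝ)) hy
      simp only [inner_add_right, inner_smul_right, ee, ep, ev, inner_zero_right, mul_zero,
        mul_one, add_zero] at h1 h2
      have hC1 : fderiv ℝ C (s, tau e z.1) (0, 1) ≠ 0 := by
        rw [← C_slice hC]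
        exact hF.imm s _ (tau_mem he hq)
      have hd : -(inner ℝ e v.1) / 2 = (0 : ℝ) := by
        rcases mul_eq_zero.1 h1 with h3 | h3
        · exact h3
        · rcases mul_eq_zero.1 h2 with h4 | h4
          · exact h4
          · exact absurd (Complex.ext h3 h4) hC1
      have hev : (inner ℝ e v.1 : ℝ) = 0 := by linarith
      rw [hd] at ha hy
      simp only [zero_mul, zero_smul, zero_add, add_zero] at ha hy
      have hpv : pr e v.1 = 0 := by
        rcases smul_eq_zero.1 ha with h3 | h3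
        · rcases smul_eq_zero.1 hy with h4 | h4
          · exact absurd (Complex.ext h3 h4) (hF.bne s _ (tau_mem he hq))
          · exact h4
        · exact h3
      have h5 : v.1 = 0 := by
        have : v.1 = (inner ℝ e v.1 : ℝ) • e + pr e v.1 := by unfold pr; abel
        rw [this, hev, hpv]
        simp
      exact Prod.ext h5 hv2)
    (prim_smooth (e := e) hG hC hb)
    (fun s z hz v hv => by
      obtain ⟨hv2, hv1⟩ := hTn z hz v hv
      have hq := mem_Sph.1 hz.1
      have p := hpt s z hz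
      obtain ⟨k, -, hk2⟩ := diso_fst (e := e) hG hC hb s z v
      have hay := p.ay
      rw [real_inner_comm] at hay
      rw [dprim hG hC hb, hk2, inner_add_right, inner_smul_right, inner_smul_right]
      have h0 : (iso e G C b (s, z)).2 = xy e C b (s, z) := rfl
      rw [h0, hay, mul_zero, zero_add, dxa hC hb]
      have hy : xy e C b (s, z) = (C (s, tau e z.1)).im • e + (b (s, tau e z.1)).im • pr e z.1 := rfl
      have ep := e_pr he z.1
      have ev := e_pr he v.1
      have pe := pr_e he z.1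
      have hpp : inner ℝ (pr e z.1) (pr e z.1) = (4 * tau e z.1 * (1 - tau e z.1) : ℝ) := by
        rw [real_inner_self_eq_norm_sq, norm_pr_sq he hq]
      have hpv := pr_pr he z.1 v.1
      rw [hv1] at hpv
      have hG3 : G (1 + ‖xy e C b (s, z)‖ ^ 2) = G (1 + (C (s, tau e z.1)).im ^ 2 +
          4 * tau e z.1 * (1 - tau e z.1) * (b (s, tau e z.1)).im ^ 2) := by
        rw [p.y2, add_assoc]
      rw [hG3, hy]
      simp only [inner_add_left, inner_add_right, inner_smul_left, inner_smul_right, ee, ep, ev, pe,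
        hpp, hpv, dens]
      have hτ : (inner ℝ e z.1 : ℝ) = 1 - 2 * tau e z.1 := by unfold tau; ring
      rw [hτ]
      simp
      ring)
  -- the end points
  have h0 : ∀ z ∈ Zs E, iso e G C b (0, z) = z := by
    intro z hz
    have hq := mem_Sph.1 hz.1
    have hτ := tau_mem he hq
    have hC0 := hF.C0 (tau e z.1)
    have hb0 := hF.b0 _ hτ
    have hy : xy e C b (0, z) = 0 := by
      have : xy e C b (0, z) = (C (0, tau e z.1)).im • e + (b (0, tau e z.1)).im • pr e z.1 := rfl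
      rw [this, hC0, hb0]
      simp
    have ha : xa e C b (0, z) = z.1 := by
      have : xa e C b (0, z) = (C (0, tau e z.1)).re • e + (b (0, tau e z.1)).re • pr e z.1 := rfl
      rw [this, hC0, hb0]
      conv_rhs => rw [decomp e z.1]
      simp
    have : iso e G C b (0, z) = (G (1 + ‖xy e C b (0, z)‖ ^ 2) • xa e C b (0, z), xy e C b (0, z)) := rfl
    rw [this, hy, ha, hG1 _ (by simp; norm_num)]
    simp only [norm_zero]
    refine Prod.ext ?_ hz.2.symm
    simp
  have h1 : ∀ z, z ∈ L ↔ ∃ q, ‖q‖ = 1 ∧ iso e G C b (1, (q, 0)) = z := by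
    intro z
    rw [hL]
    constructor
    · rintro ⟨hz1, hz2, ⟨u, hu, heu, hu1, hu2⟩, τ, hτ, hcτ⟩
      set a₀ : ℝ := √(1 + ‖z.2‖ ^ 2) * inner ℝ e z.1 with ha₀
      set a₁ : ℝ := √(1 + ‖z.2‖ ^ 2) * inner ℝ u z.1 with ha₁
      set y₀ : ℝ := inner ℝ e z.2 with hy₀
      set y₁ : ℝ := inner ℝ u z.2 with hy₁
      have uu : inner ℝ u u = (1 : ℝ) := e_e hu
      have ue : inner ℝ u e = (0 : ℝ) := by rw [real_inner_comm]; exact heu
      have hsq : 0 < 1 + ‖z.2‖ ^ 2 := by positivity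
      have hs2 : √(1 + ‖z.2‖ ^ 2) ^ 2 = 1 + ‖z.2‖ ^ 2 := Real.sq_sqrt hsq.le
      have n1 : (inner ℝ e z.1 : ℝ) ^ 2 + (inner ℝ u z.1 : ℝ) ^ 2 = 1 := by
        have h2 : ‖z.1‖ ^ 2 = 1 := by rw [hz1]; norm_num
        rw [← real_inner_self_eq_norm_sq] at h2
        have h3 : (inner ℝ z.1 z.1 : ℝ) = inner ℝ ((inner ℝ e z.1 : ℝ) • e + (inner ℝ u z.1 : ℝ) • u)
          ((inner ℝ e z.1 : ℝ) • e + (inner ℝ u z.1 : ℝ) • u) := by rw [← hu1]
        rw [h3] at h2
        simp only [inner_add_left, inner_add_right, inner_smul_left, inner_smul_right, ee, uu, ue,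
          heu] at h2
        simp at h2
        linarith
      have n2 : y₀ ^ 2 + y₁ ^ 2 = ‖z.2‖ ^ 2 := by
        rw [← real_inner_self_eq_norm_sq]
        have h3 : (inner ℝ z.2 z.2 : ℝ) = inner ℝ (y₀ • e + y₁ • u) (y₀ • e + y₁ • u) := by
          rw [← hu2]
        rw [h3]
        simp only [inner_add_left, inner_add_right, inner_smul_left, inner_smul_right, ee, uu, ue,
          heu]
        simp
        ring
      have n3 : (inner ℝ e z.1 : ℝ) * y₀ + (inner ℝ u z.1 : ℝ) * y₁ = 0 := by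
        have h3 : (inner ℝ z.1 z.2 : ℝ) = inner ℝ ((inner ℝ e z.1 : ℝ) • e + (inner ℝ u z.1 : ℝ) • u)
          (y₀ • e + y₁ • u) := by rw [← hu1, ← hu2]
        rw [h3] at hz2
        simp only [inner_add_left, inner_add_right, inner_smul_left, inner_smul_right, ee, uu, ue,
          heu] at hz2
        simp at hz2
        linarith
      have hre : (c τ).re = a₀ := by
        rw [hcτ]
        simp [wt, ha₀, mul_comm]
      have him : (c τ).im = y₀ := by
        rw [hcτ]
        simp [wt, hy₀]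
      -- the other component
      have hSg : ((a₁ : ℂ) + (y₁ : ℂ) * Complex.I) ^ 2 = 4 * τ * (1 - τ) * b (1, τ) ^ 2 := by
        have h2 := hF.rel 1 τ hτ
        rw [hF.C1] at h2
        have h3 : 4 * (τ : ℂ) * (1 - τ) * b (1, τ) ^ 2 = 1 - c τ ^ 2 := by
          linear_combination h2
        rw [h3, ← Complex.re_add_im (c τ), hre, him]
        have r1 : a₀ ^ 2 + a₁ ^ 2 = 1 + (y₀ ^ 2 + y₁ ^ 2) := by
          rw [ha₀, ha₁, mul_pow, mul_pow, ← mul_add, n1, mul_one, hs2, n2]
        have r2 : a₀ * y₀ + a₁ * y₁ = 0 := by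
          rw [ha₀, ha₁]
          linear_combination √(1 + ‖z.2‖ ^ 2) * n3
        have r1' : (a₀ : ℂ) ^ 2 + (a₁ : ℂ) ^ 2 = 1 + ((y₀ : ℂ) ^ 2 + (y₁ : ℂ) ^ 2) := by
          exact_mod_cast r1
        have r2' : (a₀ : ℂ) * y₀ + (a₁ : ℂ) * y₁ = 0 := by exact_mod_cast r2
        linear_combination r1' + 2 * Complex.I * r2' +
          ((y₁ : ℂ) ^ 2 + (y₀ : ℂ) ^ 2) * Complex.I_sq
      set m : ℝ := 2 * √(τ * (1 - τ)) with hm
      have hτ1 : 0 ≤ τ * (1 - τ) := mul_nonneg hτ.1 (by linarith [hτ.2])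
      have hm2 : m ^ 2 = 4 * τ * (1 - τ) := by
        rw [hm, mul_pow, Real.sq_sqrt hτ1]
        ring
      have hm2' : (m : ℂ) ^ 2 = 4 * (τ : ℂ) * (1 - τ) := by exact_mod_cast hm2
      obtain ⟨m', hm', hmb⟩ : ∃ m' : ℝ, m' ^ 2 = 4 * τ * (1 - τ) ∧
          (a₁ : ℂ) + (y₁ : ℂ) * Complex.I = m' * b (1, τ) := by
        have h2 : ((a₁ : ℂ) + (y₁ : ℂ) * Complex.I) ^ 2 = (m * b (1, τ)) ^ 2 := by
          rw [hSg, mul_pow, hm2']
        rcases sq_eq_sq_iff_eq_or_eq_neg.1 h2 with h3 | h3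
        · exact ⟨m, hm2, h3⟩
        · refine ⟨-m, by rw [neg_sq, hm2], ?_⟩
          rw [h3]
          push_cast
          ring
      have hbr : a₁ = m' * (b (1, τ)).re := by
        have := congrArg Complex.re hmb
        simpa using this
      have hbi : y₁ = m' * (b (1, τ)).im := by
        have := congrArg Complex.im hmb
        simpa using this
      set q : E := (1 - 2 * τ) • e + m' • u with hq
      have heq : inner ℝ e q = (1 - 2 * τ : ℝ) := by
        rw [hq]
        simp only [inner_add_right, inner_smul_right, ee, heu]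
        ring
      have hqn : ‖q‖ = 1 := by
        rw [← sq_eq_sq₀ (norm_nonneg _) zero_le_one, ← real_inner_self_eq_norm_sq, hq]
        simp only [inner_add_left, inner_add_right, inner_smul_left, inner_smul_right, ee, uu, ue,
          heu]
        simp
        linear_combination hm'
      have htq : tau e q = τ := by
        unfold tau
        rw [heq]
        ring
      have hpq : pr e q = m' • u := by
        unfold pr
        rw [heq, hq]
        abel
      refine ⟨q, hqn, ?_⟩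
      have p := hF.pt he 1 (z := (q, (0 : E))) hqn
      have hy : xy e C b (1, (q, (0 : E))) = z.2 := by
        have : xy e C b (1, (q, (0 : E))) = (C (1, tau e q)).im • e + (b (1, tau e q)).im • pr e q := rfl
        rw [this, htq, hpq, hF.C1, him, smul_smul, mul_comm, ← hbi]
        exact hu2.symm
      have ha : xa e C b (1, (q, (0 : E))) = √(1 + ‖z.2‖ ^ 2) • z.1 := by
        have : xa e C b (1, (q, (0 : E))) = (C (1, tau e q)).re • e + (b (1, tau e q)).re • pr e q := rfl
        rw [this, htq, hpq, hF.C1, hre, smul_smul, mul_comm, ← hbr, ha₀, ha₁]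
        conv_rhs => rw [hu1]
        rw [smul_add, smul_smul, smul_smul]
      have : iso e G C b (1, (q, (0 : E))) = (G (1 + ‖xy e C b (1, (q, (0 : E)))‖ ^ 2) •
        xa e C b (1, (q, (0 : E))), xy e C b (1, (q, (0 : E)))) := rfl
      rw [this, p.Gval hG1, hy, ha, smul_smul, inv_mul_cancel₀ (Real.sqrt_pos.2 hsq).ne', one_smul]
    · rintro ⟨q, hq, rfl⟩
      have p := hF.pt he 1 (z := (q, (0 : E))) hq
      have hτ := tau_mem he hq
      refine ⟨p.norm hG1, p.orth, ?_, tau e q, hτ, ?_⟩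
      · have key : ∃ u : E, ‖u‖ = 1 ∧ inner ℝ e u = (0 : ℝ) ∧ ∃ k : ℝ, pr e q = k • u := by
          by_cases h2 : pr e q = 0
          · exact ⟨u₀, hu₀, heu₀, 0, by rw [h2, zero_smul]⟩
          · refine ⟨‖pr e q‖⁻¹ • pr e q, ?_, ?_, ‖pr e q‖, ?_⟩
            · rw [norm_smul, norm_inv, norm_norm]
              exact inv_mul_cancel₀ (norm_ne_zero_iff.2 h2)
            · rw [inner_smul_right, e_pr he, mul_zero]
            · rw [smul_smul, mul_inv_cancel₀ (norm_ne_zero_iff.2 h2), one_smul]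
        obtain ⟨u, hu, heu, k, hk⟩ := key
        have uu : inner ℝ u u = (1 : ℝ) := e_e hu
        have ue : inner ℝ u e = (0 : ℝ) := by rw [real_inner_comm]; exact heu
        have hpl : ∀ x y : ℝ, InPl e u (x • e + y • u) := by
          intro x y
          unfold InPl
          simp only [inner_add_right, inner_smul_right, ee, uu, ue, heu]
          simp
        refine ⟨u, hu, heu, ?_, ?_⟩
        · have : (iso e G C b (1, (q, (0 : E)))).1 = G (1 + ‖xy e C b (1, (q, (0 : E)))‖ ^ 2) •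
            ((C (1, tau e q)).re • e + (b (1, tau e q)).re • pr e q) := rfl
          rw [this, hk, smul_add, smul_smul, smul_smul, smul_smul]
          exact hpl _ _
        · have : (iso e G C b (1, (q, (0 : E)))).2 = (C (1, tau e q)).im • e +
            (b (1, tau e q)).im • pr e q := rfl
          rw [this, hk, smul_smul]
          exact hpl _ _
      · have h2 : (inner ℝ e (iso e G C b (1, (q, (0 : E)))).1 : ℝ) *
            √(1 + ‖(iso e G C b (1, (q, (0 : E)))).2‖ ^ 2) = (c (tau e q)).re := by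
          rw [← hF.C1, ← p.ea, p.inv hG1, inner_smul_right]
          ring
        have h3 : (inner ℝ e (iso e G C b (1, (q, (0 : E)))).2 : ℝ) = (c (tau e q)).im := by
          rw [← hF.C1, ← p.ey]
          rfl
        unfold wt
        rw [h2, h3]
        exact (Complex.re_add_im _).symm
  refine ⟨iso e G C b, iso_smooth hG hC hb,
    fun s z hz => cot_sph.2 ⟨(hpt s z hz).norm hG1, (hpt s z hz).orth⟩, h0, fun w => ?_,
    fun g hg s z _ => iso_equiv_one G C b hg s z, H, φ, hH, hφ, hφι⟩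
  rw [h1]
  constructor
  · rintro ⟨q, hq, hw⟩
    exact ⟨(q, 0), ⟨mem_Sph.2 hq, rfl⟩, hw⟩
  · rintro ⟨z, hz, hw⟩
    refine ⟨z.1, mem_Sph.1 hz.1, ?_⟩
    rw [← hw]
    congr 2
    exact Prod.ext rfl hz.2.symm

/-- **The isotopy, for one axis.** -/
theorem main_iso {n : ℕ} (hn : Module.finrank ℝ E = n + 1) (h2 : 2 ≤ n) {e : E} (he : ‖e‖ = 1)
    {L : Set (E × E)} (hL : IsClosedExactLagrangian n (Sph E) L) (hr : RotInv e L) :
    ∃ ι, IsIso (fun g => g e = e) L ι := by
  obtain ⟨u, h⟩ := exists_orth he hn (by omega)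
  have h3 : 3 ≤ Module.finrank ℝ E := by omega
  have hinv : ∀ g : E ≃ₗᵢ[ℝ] E, g e = e → (LinearMap.det (g.toLinearEquiv : E →ₗ[ℝ] E) = 1 ∨
      LinearMap.det (g.toLinearEquiv : E →ₗ[ℝ] E) = -1) → ∀ z ∈ L, (g z.1, g z.2) ∈ L :=
    fun g hg hd z hz => inv_of_det he h.w1 h.vw h3 hL hr hg hd hz
  have hRL : ∀ z ∈ L, RR e u z ∈ L := fun z hz =>
    hinv (Pl e u).reflection (h.refl_eq.2 (InPl.smul he h.w1 h.vw 1 0 (by simp))) (det_refl _) z hz
  have hSL : ∀ z ∈ L, SS u z ∈ L := fun z hz =>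
    hinv (Refl u) h.Refl_e (Or.inr (Refl_det h.w1)) z hz
  have hplane : ∀ z ∈ L, ∃ v, Orth e v ∧ InPl e v z.1 ∧ InPl e v z.2 := by
    intro z hz
    obtain ⟨v, hv, hev, h4, h5⟩ := exists_plane he h.w1 h.vw hL hr hz
    exact ⟨v, ⟨he, hv, hev⟩, h4, h5⟩
  -- the slice
  have hmove : ∀ z ∈ L, ∀ v, Orth e v → InPl e v z.1 → InPl e v z.2 →
      ∃ g : E ≃ₗᵢ[ℝ] E, g e = e ∧ (∀ x, g (g x) = x) ∧ (g z.1, g z.2) ∈ Slc e u L := by
    intro z hz v hv h4 h5
    obtain ⟨g, hge, hgv, hgg, hdet⟩ := exists_swap h hv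
    exact ⟨g, hge, hgg, hinv g hge hdet z hz, h.RR_eq.2 ⟨inPl_map hge hgv h4, inPl_map hge hgv h5⟩⟩
  have hne : (Slc e u L).Nonempty := by
    obtain ⟨z, hz⟩ := hL.nonempty
    obtain ⟨v, hv, h4, h5⟩ := hplane z hz
    obtain ⟨g, -, -, hg⟩ := hmove z hz v hv h4 h5
    exact ⟨_, hg⟩
  have hS := h.slice_closed hn hL hRL hne
  have hInT : ∀ z ∈ Slc e u L, InT e u z := by
    intro z hz
    obtain ⟨h4, h5⟩ := cot_sph.1 (hL.sub hz.1)
    obtain ⟨h6, h7⟩ := h.RR_eq.1 hz.2
    exact ⟨h4, h6, h7, h5⟩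
  have hSS : ∀ z ∈ Slc e u L, SS u z ∈ Slc e u L := by
    intro z hz
    have h4 := h.InT_SS (hInT z hz)
    exact ⟨hSL z hz.1, h.RR_eq.2 ⟨h4.p1, h4.p2⟩⟩
  obtain ⟨D, hDQ, hDL, hDX⟩ := exists_base' h.circ_closed hS (h.slice_emb hS.sub)
  obtain ⟨Λ⟩ := D.exists_leaf
  obtain ⟨γ, hγ⟩ := exists_curve h Λ hDQ hDX (by rw [hDL]; exact hSS)
  rw [hDL] at hγ
  obtain ⟨c, hc, hc1, hc2⟩ := hγ.exists_arc h hInT
  refine arc_iso_one he h.w1 h.vw hc fun z => ?_
  constructor
  · intro hz
    obtain ⟨h4, h5⟩ := cot_sph.1 (hL.sub hz)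
    obtain ⟨v, hv, h6, h7⟩ := hplane z hz
    refine ⟨h4, h5, ⟨v, hv.w1, hv.vw, h6, h7⟩, ?_⟩
    obtain ⟨g, hge, -, hg⟩ := hmove z hz v hv h6 h7
    obtain ⟨τ, hτ, hcτ⟩ := hc1 _ hg
    exact ⟨τ, hτ, by rw [hcτ, wt_map hge]⟩
  · rintro ⟨h4, h5, ⟨v, hv, hev, h6, h7⟩, τ, hτ, hcτ⟩
    obtain ⟨z₀, hz₀, hwz₀⟩ := hc2 τ hτ
    obtain ⟨g, hge, hgv, hgg, hdet⟩ := exists_swap h ⟨he, hv, hev⟩
    have hT : InT e u (g z.1, g z.2) :=
      ⟨(g.norm_map _).trans h4, inPl_map hge hgv h6, inPl_map hge hgv h7,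
        (g.inner_map_map _ _).trans h5⟩
    have h8 : (g z.1, g z.2) ∈ L := by
      rcases h.eq_or_of_wt hT (hInT z₀ hz₀) (by rw [wt_map hge, ← hcτ, hwz₀]) with h9 | h9
      · rw [h9]
        exact hz₀.1
      · rw [h9]
        exact hSL _ hz₀.1
    have h9 := hinv g hge hdet _ h8
    simp only [hgg] at h9
    exact h9

end Vale.Agent.P220.R2.H180
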