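import Vale.Agent.P220.R2.H180.T.Mom
import Vale.Agent.P220.R2.H180.T.One

/-!
# Equivariance under a compact group of isometries
-/

open Set Filter Topology
open scoped ContDiff

set_option linter.unusedSectionVars false

namespace Vale.Agent.P220.R2.H180.T

open H57

variable {E : Type} [NormedAddCommGroup E] [InnerProductSpace ℝ E] [FiniteDimensional ℝ E]

/-- `L` is the image of the zero section under the flow of a `Γ`-invariant Hamiltonian. -/
def EqHam {Γ : Type} [Group Γ] (σ : Γ →* (E ≃ₗᵢ[ℝ] E)) (L : Set (E × E)) : Prop :=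
  ∃ (H : ℝ × (E × E) → ℝ) (φ : ℝ → E × E → E × E), IsHam (Sph E) H ∧
    (∀ g s z, H (s, act (σ g) z) = H (s, z)) ∧ IsHamFlow (Sph E) H φ ∧
    φ 1 '' {z | z.1 ∈ Sph E ∧ z.2 = 0} = L

/-- the zero section itself -/
theorem eqHam_zero {Γ : Type} [Group Γ] (σ : Γ →* (E ≃ₗᵢ[ℝ] E)) : EqHam σ (Zs E) := by
  refine ⟨fun _ => 0, fun _ z => z, ⟨contDiff_const, 0, fun _ _ _ _ => rfl⟩, fun _ _ _ => rfl,
    ⟨fun _ _ => rfl, fun z hz s hs => ⟨hz, 0, ?_, hasDerivWithinAt_const _ _ _, fun u _ => ?_⟩⟩, ?_⟩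
  · exact ⟨fun _ => z, contDiff_const, fun _ => hz, rfl, by simp⟩
  · simp [om]
  · simp only [image_id']
    rfl

/-- with all moments zero `L` is the zero section -/
theorem eq_Zs {n : ℕ} (hn : Module.finrank ℝ E = n + 1) (h1 : 1 ≤ n)
    {L : Set (E × E)} (hL : IsClosedExactLagrangian n (Sph E) L) {M : Submodule ℝ E}
    (hM0 : Mᗮ = ⊥) (hM : Mom M.starProjection L) : L = Zs E := by
  have hMtop : M = ⊤ := by
    rw [← M.orthogonal_orthogonal, hM0, Submodule.bot_orthogonal_eq_top]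
  have hfix : ∀ x, M.starProjection x = x := fun x =>
    Submodule.starProjection_eq_self_iff.2 (hMtop ▸ Submodule.mem_top)
  have hfr : 2 ≤ Module.finrank ℝ M := by
    rw [hMtop, finrank_top]
    omega
  have hz0 : ∀ z ∈ L, z ∈ Zs E := by
    intro z hz
    obtain ⟨h2, h3⟩ := cot_sph.1 (hL.sub hz)
    refine ⟨mem_Sph.2 h2, ?_⟩
    by_contra hne
    have ho : Orth z.1 (‖z.2‖⁻¹ • z.2) :=
      ⟨h2, unit_of_ne hne, by rw [inner_smul_right, h3, mul_zero]⟩
    have h4 := hM _ _ ho (hfix _) (hfix _) z hz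
    rw [inner_unit hne, h3, mul_zero, e_e h2, one_mul] at h4
    exact hne (norm_eq_zero.1 h4)
  refine Subset.antisymm (fun z hz => hz0 z hz) ?_
  rintro ⟨q, p⟩ ⟨hq, hp⟩
  simp only at hq hp
  subst hp
  obtain ⟨z₀, hz₀⟩ := hL.nonempty
  obtain ⟨h2, h3⟩ := hz0 z₀ hz₀
  obtain ⟨g, -, hg, -⟩ := (isPr_sub M).exchange (mem_Sph.1 h2) (mem_Sph.1 hq) (hfix _) (hfix _)
  have h4 := inv_sub hn hL M hM hfr g (fun x hx => by
    rw [hM0, Submodule.mem_bot] at hx
    rw [hx, map_zero]) z₀ hz₀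
  rw [hg, h3, map_zero] at h4
  exact h4

/-- an isometry that fixes the orthogonal complement of a line -/
theorem flip_mem {M : Submodule ℝ E} (hM1 : Module.finrank ℝ M = 1) {e : E} (heM : e ∈ M)
    (he : ‖e‖ = 1) {g : E ≃ₗᵢ[ℝ] E} (hg : ∀ x ∈ M, g x ∈ M) : g e = e ∨ g e = -e := by
  have h1 : ∀ x ∈ M, ∃ k : ℝ, x = k • e := by
    intro x hx
    have h2 := (finrank_eq_one_iff_of_nonzero' (⟨e, heM⟩ : M) (fun h => by
      have h3 : e = 0 := congrArg Subtype.val h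
      rw [h3, norm_zero] at he
      exact zero_ne_one he)).1 hM1 ⟨x, hx⟩
    obtain ⟨c, hc⟩ := h2
    exact ⟨c, (congrArg Subtype.val hc).symm⟩
  obtain ⟨k, hk⟩ := h1 _ (hg e heM)
  have h2 : |k| = 1 := by
    have h3 := g.norm_map e
    rw [hk, norm_smul, he, mul_one, Real.norm_eq_abs] at h3
    exact h3
  rcases abs_eq (zero_le_one' ℝ) |>.1 h2 with h3 | h3
  · left
    rw [hk, h3, one_smul]
  · right
    rw [hk, h3, neg_one_smul]

theorem line_span {M : Submodule ℝ E} (hM1 : Module.finrank ℝ M = 1) {e : E} (heM : e ∈ M)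
    (he : ‖e‖ = 1) : ∀ x ∈ M, ∃ k : ℝ, x = k • e := by
  intro x hx
  have h2 := (finrank_eq_one_iff_of_nonzero' (⟨e, heM⟩ : M) (fun h => by
    have h3 : e = 0 := congrArg Subtype.val h
    rw [h3, norm_zero] at he
    exact zero_ne_one he)).1 hM1 ⟨x, hx⟩
  obtain ⟨c, hc⟩ := h2
  exact ⟨c, (congrArg Subtype.val hc).symm⟩

/-- invariance under the isometries of a line, given one flip -/
theorem inv_line {L : Set (E × E)} {M : Submodule ℝ E} (hM1 : Module.finrank ℝ M = 1)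
    {γ : E ≃ₗᵢ[ℝ] E} (hγM : ∀ x ∈ M, γ x ∈ M) {e : E} (heM : e ∈ M) (he : ‖e‖ = 1)
    (hγe : γ e ≠ e) (hγL : ∀ z ∈ L, (γ z.1, γ z.2) ∈ L)
    (hinv : ∀ g : E ≃ₗᵢ[ℝ] E, (∀ x ∈ M, g x = x) → ∀ z ∈ L, (g z.1, g z.2) ∈ L)
    (g : E ≃ₗᵢ[ℝ] E) (hg : ∀ x ∈ Mᗮ, g x = x) : ∀ z ∈ L, (g z.1, g z.2) ∈ L := by
  intro z hz
  have hsp := line_span hM1 heM he
  have hgM : ∀ x ∈ M, g x ∈ M := by
    intro x hx
    rw [← M.orthogonal_orthogonal, Submodule.mem_orthogonal]
    intro y hy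
    rw [← hg y hy, g.inner_map_map]
    exact Submodule.inner_left_of_mem_orthogonal hx hy
  rcases flip_mem hM1 heM he hgM with h1 | h1
  · have h2 : ∀ x, g x = x := by
      intro x
      have h3 : x = M.starProjection x + cp M.starProjection x := (add_cp _ x).symm
      have h4 : g (M.starProjection x) = M.starProjection x := by
        obtain ⟨k, hk⟩ := hsp _ (Submodule.starProjection_apply_mem M x)
        rw [hk, map_smul, h1]
      have h5 : g (cp M.starProjection x) = cp M.starProjection x := by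
        refine hg _ ?_
        rw [cp_sub]
        exact Submodule.starProjection_apply_mem _ _
      conv_lhs => rw [h3]
      conv_rhs => rw [h3]
      rw [map_add, h4, h5]
    rw [h2, h2]
    exact hz
  · have h2 : γ e = -e := (flip_mem hM1 heM he hγM).resolve_left hγe
    have h3 := hinv (γ.symm.trans g) (fun x hx => by
      obtain ⟨k, rfl⟩ := hsp x hx
      have h4 : γ.symm e = -e := by
        rw [LinearIsometryEquiv.symm_apply_eq, map_neg, h2, neg_neg]
      show g (γ.symm (k • e)) = k • e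
      rw [map_smul, h4, map_smul, map_neg, h1, neg_neg]) _ (hγL z hz)
    have h5 : ∀ x, (γ.symm.trans g) (γ x) = g x := fun x => by
      show g (γ.symm (γ x)) = g x
      rw [LinearIsometryEquiv.symm_apply_apply]
    simp only [h5] at h3
    exact h3

theorem comm_proj {K : Submodule ℝ E} {Γ : Type} [Group Γ] {σ : Γ →* (E ≃ₗᵢ[ℝ] E)}
    (hΓK : ∀ g, ∀ x ∈ K, σ g x ∈ K) (g : Γ) :
    (∀ x ∈ Kᗮ, σ g x ∈ Kᗮ) ∧ ∀ x, K.starProjection (σ g x) = σ g (K.starProjection x) := by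
  have h1 : ∀ x ∈ Kᗮ, σ g x ∈ Kᗮ := by
    intro x hx
    rw [Submodule.mem_orthogonal] at hx ⊢
    intro y hy
    have h2 : σ g (σ g⁻¹ y) = y := by
      rw [map_inv]
      exact (σ g).apply_symm_apply y
    rw [← h2, (σ g).inner_map_map]
    exact hx _ (hΓK _ y hy)
  refine ⟨h1, fun x => ?_⟩
  have h3 : x = K.starProjection x + cp K.starProjection x := (add_cp _ x).symm
  conv_lhs => rw [h3]
  rw [map_add, map_add, Submodule.starProjection_eq_self_iff.2
    (hΓK g _ (Submodule.starProjection_apply_mem K x)),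
    (Submodule.starProjection_apply_eq_zero_iff K).2 (h1 _ (by
      rw [cp_sub]
      exact Submodule.starProjection_apply_mem _ _)), add_zero]

/-- the case of one axis -/
theorem eq_line {n : ℕ} (hn : Module.finrank ℝ E = n + 1) (h2 : 2 ≤ n) (M : Submodule ℝ E)
    (hM1 : Module.finrank ℝ M = 1) {L : Set (E × E)} (hL : IsClosedExactLagrangian n (Sph E) L)
    (hM : Mom M.starProjection L) (hM' : Mom Mᗮ.starProjection L)
    {Γ : Type} [Group Γ] [TopologicalSpace Γ] [IsTopologicalGroup Γ] [CompactSpace Γ]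
    (σ : Γ →* (E ≃ₗᵢ[ℝ] E)) (hσ : ∀ x, Continuous fun g => σ g x)
    (hΓM : ∀ g, ∀ x ∈ M, σ g x ∈ M) (hΓL : ∀ g, ∀ z ∈ L, (σ g z.1, σ g z.2) ∈ L) : EqHam σ L := by
  have hfr := M.finrank_add_finrank_orthogonal
  have hMM := M.orthogonal_orthogonal
  obtain ⟨e, heM, he⟩ := exists_unit (K := M) (by omega)
  have hsp := line_span hM1 heM he
  have h5 : ∀ g : E ≃ₗᵢ[ℝ] E, (∀ x ∈ M, g x = x) → ∀ z ∈ L, (g z.1, g z.2) ∈ L := fun g hg =>
    inv_sub hn hL Mᗮ hM' (by omega) g (fun x hx => hg x (by rwa [hMM] at hx))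
  by_cases hflip : ∃ γ, σ γ e ≠ e
  · obtain ⟨γ, hγ⟩ := hflip
    obtain ⟨ι, hι⟩ := core_sub M (by omega) (by omega) hn hL hM hM'
      (inv_line hM1 (hΓM γ) heM he hγ (hΓL γ) h5) h5
    exact hι.exists_ham σ hσ fun g => (comm_proj hΓM g).2
  · push Not at hflip
    obtain ⟨ι, hι⟩ := main_iso hn h2 he hL (fun g hg hd z hz => h5 g (fun x hx => by
      obtain ⟨k, rfl⟩ := hsp x hx
      rw [map_smul, hg]) z hz)
    exact hι.exists_ham σ hσ hflip

/-- **Main theorem, equivariant form.** -/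
theorem main_eq {n : ℕ} (hn : Module.finrank ℝ E = n + 1) (h2 : 2 ≤ n) (K : Submodule ℝ E)
    {L : Set (E × E)} (hL : IsClosedExactLagrangian n (Sph E) L)
    (hM : Mom K.starProjection L) (hM' : Mom Kᗮ.starProjection L)
    {Γ : Type} [Group Γ] [TopologicalSpace Γ] [IsTopologicalGroup Γ] [CompactSpace Γ]
    (σ : Γ →* (E ≃ₗᵢ[ℝ] E)) (hσ : ∀ x, Continuous fun g => σ g x)
    (hΓK : ∀ g, ∀ x ∈ K, σ g x ∈ K)
    (hΓL : ∀ g, ∀ z ∈ L, (σ g z.1, σ g z.2) ∈ L) : EqHam σ L := by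
  have hKK := K.orthogonal_orthogonal
  rcases Nat.lt_or_ge (Module.finrank ℝ K) 2 with hK | hK
  · rcases Nat.eq_zero_or_pos (Module.finrank ℝ K) with hK0 | hK0
    · have h3 : Kᗮᗮ = ⊥ := by
        rw [hKK]
        exact Submodule.finrank_eq_zero.1 hK0
      rw [eq_Zs hn (by omega) hL h3 hM']
      exact eqHam_zero σ
    · exact eq_line hn h2 K (by omega) hL hM hM' σ hσ hΓK hΓL
  rcases Nat.lt_or_ge (Module.finrank ℝ Kᗮ) 2 with hK' | hK'
  · rcases Nat.eq_zero_or_pos (Module.finrank ℝ Kᗮ) with hK0 | hK0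
    · rw [eq_Zs hn (by omega) hL (Submodule.finrank_eq_zero.1 hK0) hM]
      exact eqHam_zero σ
    · exact eq_line hn h2 Kᗮ (by omega) hL hM'
        (cast_sub (p := fun P => Mom P L) K.orthogonal_orthogonal.symm hM) σ hσ
        (fun g => (comm_proj hΓK g).1) hΓL
  obtain ⟨ι, hι⟩ := core_sub K (by omega) (by omega) hn hL hM hM' (inv_sub hn hL K hM hK)
    (fun g hg => inv_sub hn hL Kᗮ hM' hK' g (fun x hx => hg x (by rwa [hKK] at hx)))
  exact hι.exists_ham σ hσ fun g => (comm_proj hΓK g).2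

end Vale.Agent.P220.R2.H180.T
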