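import Vale.Agent.P220.R2.H180.T.Iso
import Vale.Agent.P220.R2.H180.T.Avg

/-!
# The zero section is Hamiltonian isotopic to the Lagrangian over an arc
-/

open Set Filter Topology
open scoped ContDiff

set_option linter.unusedSectionVars false

namespace Vale.Agent.P220.R2.H180.T

open H57

variable {E : Type} [NormedAddCommGroup E] [InnerProductSpace ℝ E] [FiniteDimensional ℝ E]

/-- complex coordinates from real and imaginary multiples of a vector -/
theorem eq_of_smul {w w' : ℂ} {x y : E} (h1 : w.re • x = w'.re • y) (h2 : w.im • x = w'.im • y) :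
    w ^ 2 * ((inner ℝ x x : ℝ) : ℂ) = w' ^ 2 * ((inner ℝ y y : ℝ) : ℂ) := by
  have e1 : (inner ℝ (w.re • x) (w.re • x) : ℝ) = inner ℝ (w'.re • y) (w'.re • y) := by rw [h1]
  have e2 : (inner ℝ (w.im • x) (w.im • x) : ℝ) = inner ℝ (w'.im • y) (w'.im • y) := by rw [h2]
  have e3 : (inner ℝ (w.re • x) (w.im • x) : ℝ) = inner ℝ (w'.re • y) (w'.im • y) := by rw [h1, h2]
  simp only [inner_smul_left, inner_smul_right, conj_trivial] at e1 e2 e3
  apply Complex.ext
  · simp only [sq, Complex.mul_re, Complex.mul_im, Complex.ofReal_re, Complex.ofReal_im]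
    linear_combination e1 - e2
  · simp only [sq, Complex.mul_re, Complex.mul_im, Complex.ofReal_re, Complex.ofReal_im]
    linear_combination 2 * e3

theorem smul_cancel {w : ℂ} (hw : w ≠ 0) {x y : E} (h1 : w.re • x = w.re • y)
    (h2 : w.im • x = w.im • y) : x = y := by
  by_cases h4 : w.re = 0
  · have h5 : w.im ≠ 0 := fun h5 => hw (Complex.ext h4 h5)
    exact smul_right_injective E h5 h2
  · exact smul_right_injective E h4 h1

theorem sq_root {w X : ℂ} {t : ℝ} (ht : 0 ≤ t) (h : w ^ 2 = X ^ 2 * t) :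
    ∃ m : ℝ, m ^ 2 = t ∧ w = m * X := by
  have hm2 : (√t) ^ 2 = t := Real.sq_sqrt ht
  have hm2' : ((√t : ℝ) : ℂ) ^ 2 = t := by exact_mod_cast hm2
  have h2 : w ^ 2 = (((√t : ℝ) : ℂ) * X) ^ 2 := by
    rw [h, mul_pow, hm2']
    ring
  rcases sq_eq_sq_iff_eq_or_eq_neg.1 h2 with h3 | h3
  · exact ⟨√t, hm2, h3⟩
  · refine ⟨-√t, by rw [neg_sq, hm2], ?_⟩
    rw [h3]
    push_cast
    ring

/-- An isotopy of the zero section to `L`, equivariant under the isometries that satisfy `C`, and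
generated by a Hamiltonian. -/
structure IsIso (C : (E ≃ₗᵢ[ℝ] E) → Prop) (L : Set (E × E)) (ι : ℝ × (E × E) → E × E) : Prop where
  smooth : ContDiff ℝ ∞ ι
  mem : ∀ s, ∀ z ∈ Zs E, ι (s, z) ∈ Cot (Sph E)
  zero : ∀ z ∈ Zs E, ι (0, z) = z
  one : ∀ w, w ∈ L ↔ ∃ z ∈ Zs E, ι (1, z) = w
  equiv : ∀ g : E ≃ₗᵢ[ℝ] E, C g → ∀ s, ∀ z ∈ Zs E, ι (s, act g z) = act g (ι (s, z))
  ham : ∃ (H : ℝ × (E × E) → ℝ) (φ : ℝ → E × E → E × E), IsHam (Sph E) H ∧
    IsHamFlow (Sph E) H φ ∧ ∀ s ∈ Icc (0 : ℝ) 1, ∀ z ∈ Zs E, φ s (ι (0, z)) = ι (s, z)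

theorem act_Zs (g : E ≃ₗᵢ[ℝ] E) {z : E × E} (hz : z ∈ Zs E) : act g z ∈ Zs E := by
  refine ⟨mem_Sph.2 ((g.norm_map _).trans (mem_Sph.1 hz.1)), ?_⟩
  show g z.2 = 0
  rw [hz.2, map_zero]

theorem iso_equiv (P : E →L[ℝ] E) (G : ℝ → ℝ) (A B : ℝ × ℝ → ℂ) {g : E ≃ₗᵢ[ℝ] E}
    (hg : ∀ x, P (g x) = g (P x)) (s : ℝ) (z : E × E) :
    iso P G A B (s, act g z) = act g (iso P G A B (s, z)) := by
  have h1 : ∀ x, cp P (g x) = g (cp P x) := fun x => by
    rw [cp_apply, cp_apply, hg, map_sub]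
  have h2 : ∀ x, tau P (g x) = tau P x := fun x => by
    unfold tau
    rw [h1, LinearIsometryEquiv.norm_map]
  have ha : xa P A B (s, act g z) = g (xa P A B (s, z)) := by
    unfold xa
    simp only [act_apply, h1, h2, hg, map_add, map_smul]
  have hy : xy P A B (s, act g z) = g (xy P A B (s, z)) := by
    unfold xy
    simp only [act_apply, h1, h2, hg, map_add, map_smul]
  unfold iso
  rw [ha, hy, act_apply]
  simp only [LinearIsometryEquiv.norm_map, map_smul]

/-- **The isotopy of the zero section to the Lagrangian over an arc.** -/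
theorem arc_iso {P : E →L[ℝ] E} (hP : IsPr P) {a₀ b₀ : E} (ha₀ : ‖a₀‖ = 1) (hb₀ : ‖b₀‖ = 1)
    (hPa₀ : P a₀ = a₀) (hPb₀ : P b₀ = 0)
    {c : ℝ → ℂ} (hc : IsArc c) {L : Set (E × E)}
    (hL : ∀ z, z ∈ L ↔ ‖z.1‖ = 1 ∧ inner ℝ z.1 z.2 = (0 : ℝ) ∧
      ∃ a b, ‖a‖ = 1 ∧ ‖b‖ = 1 ∧ P a = a ∧ P b = 0 ∧ InPl a b z.1 ∧ InPl a b z.2 ∧
      ∃ τ ∈ Icc (0 : ℝ) 1, c τ = 2 * wt a z ^ 2 - 1) :
    ∃ ι, IsIso (fun g => ∀ x, P (g x) = g (P x)) L ι := by
  obtain ⟨A, B, hF⟩ := hc.exists_fam2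
  obtain ⟨G, hG, hG1⟩ := exists_invsqrt
  obtain ⟨UQ, r, hr⟩ := exists_sph_ret (E := E)
  obtain ⟨UK, ρ, hρ, hTn⟩ := exists_Zs_ret (E := E)
  have hA := hF.hA
  have hB := hF.hB
  have cQ : IsCompact (Sph E) := isCompact_sphere _ _
  have cK : IsCompact (Zs E) := by
    have : Zs E = Sph E ×ˢ {0} := rfl
    rw [this]
    exact cQ.prod isCompact_singleton
  have hpt : ∀ s, ∀ z ∈ Zs E, Pt P A B s z := fun s z hz => hF.pt hP s (mem_Sph.1 hz.1)
  obtain ⟨H, φ, hH, hφ, hφι⟩ := H481.ham_ext hr cQ hρ cK (iso_smooth (P := P) hG hA hB)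
    (fun s z hz => cot_sph.2 ⟨(hpt s z hz).norm hG1, (hpt s z hz).orth⟩)
    (fun s z hz z' hz' h => by
      have p := hpt s z hz
      have p' := hpt s z' hz'
      have hy : xy P A B (s, z) = xy P A B (s, z') := congrArg Prod.snd h
      have ha : xa P A B (s, z) = xa P A B (s, z') := by
        rw [p.inv hG1, p'.inv hG1, h]
      have hq := mem_Sph.1 hz.1
      have hq' := mem_Sph.1 hz'.1
      have k1 : (A (s, tau P z.1)).re • P z.1 = (A (s, tau P z'.1)).re • P z'.1 := by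
        rw [← p.pa, ← p'.pa, ha]
      have k2 : (A (s, tau P z.1)).im • P z.1 = (A (s, tau P z'.1)).im • P z'.1 := by
        rw [← p.py, ← p'.py, hy]
      have k3 : (B (s, tau P z.1)).re • cp P z.1 = (B (s, tau P z'.1)).re • cp P z'.1 := by
        rw [← p.qa, ← p'.qa, ha]
      have k4 : (B (s, tau P z.1)).im • cp P z.1 = (B (s, tau P z'.1)).im • cp P z'.1 := by
        rw [← p.qy, ← p'.qy, hy]
      have h1 := eq_of_smul k1 k2
      rw [hP.P_sq hq, hP.P_sq hq'] at h1
      push_cast at h1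
      have h2 := hF.inj s _ (hP.tau_mem hq) _ (hP.tau_mem hq') h1
      rw [← h2] at k1 k2 k3 k4
      have h3 := smul_cancel (hF.ane s _ (hP.tau_mem hq)) k1 k2
      have h4 := smul_cancel (hF.bne s _ (hP.tau_mem hq)) k3 k4
      have h5 : z.1 = z'.1 := by
        rw [← add_cp P z.1, ← add_cp P z'.1, h3, h4]
      exact Prod.ext h5 (by rw [hz.2, hz'.2]))
    (fun s z hz v hv h => by
      obtain ⟨hv2, hv1⟩ := hTn z hz v hv
      have hq := mem_Sph.1 hz.1
      have hy : fderiv ℝ (xy P A B) (s, z) (0, v) = 0 := by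
        rw [← diso_snd hG hA hB, h]
        rfl
      obtain ⟨k, hk, hk2⟩ := diso_fst (P := P) hG hA hB s z v
      have hGne : G (1 + ‖xy P A B (s, z)‖ ^ 2) ≠ 0 := by
        rw [(hpt s z hz).Gval hG1]
        exact inv_ne_zero (Real.sqrt_pos.2 (by positivity)).ne'
      have ha : fderiv ℝ (xa P A B) (s, z) (0, v) = 0 := by
        rw [h, hk hy, zero_smul, zero_add] at hk2
        exact (smul_eq_zero.1 hk2.symm).resolve_left hGne
      rw [dxa hA hB] at ha
      rw [dxy hA hB] at hy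
      have hτ := hP.tau_mem hq
      have pp := hP.P_sq hq
      have ppv : (inner ℝ (P z.1) (P v.1) : ℝ) = -inner ℝ (cp P z.1) (cp P v.1) := by
        rw [hP.inner_P, hv1, zero_sub]
      have hA0 := hF.ane s _ hτ
      have hB0 := hF.bne s _ hτ
      have hI := hF.imm s _ hτ
      set δ : ℝ := inner ℝ (cp P z.1) (cp P v.1) with hδ
      set τ := tau P z.1 with hτd
      -- the components
      have ha1 := congrArg P ha
      have ha2 := congrArg (cp P) ha
      have hy1 := congrArg P hy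
      have hy2 := congrArg (cp P) hy
      simp only [map_add, map_smul, map_zero, hP.idem, hP.P_cp, hP.cp_P, hP.cp_cp, smul_zero,
        add_zero, zero_add] at ha1 ha2 hy1 hy2
      have i1 := congrArg (fun x => (inner ℝ (P z.1) x : ℝ)) ha1
      have i2 := congrArg (fun x => (inner ℝ (P z.1) x : ℝ)) hy1
      simp only [inner_add_right, inner_smul_right, pp, ppv, inner_zero_right] at i1 i2
      have hδ0 : δ = 0 := by
        by_contra hne
        apply hI
        have j1 : 2 * (fderiv ℝ A (s, τ) (0, 1)).re * (1 - τ) - (A (s, τ)).re = 0 := by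
          refine mul_left_cancel₀ hne ?_
          linear_combination i1
        have j2 : 2 * (fderiv ℝ A (s, τ) (0, 1)).im * (1 - τ) - (A (s, τ)).im = 0 := by
          refine mul_left_cancel₀ hne ?_
          linear_combination i2
        have j3 : 2 * fderiv ℝ A (s, τ) (0, 1) * (1 - τ) - A (s, τ) = 0 := by
          apply Complex.ext
          · simpa using j1
          · simpa using j2
        linear_combination (A (s, τ)) * j3
      rw [hδ0] at ha1 ha2 hy1 hy2
      simp only [mul_zero, zero_mul, zero_smul, add_zero] at ha1 ha2 hy1 hy2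
      have v1 : P v.1 = 0 := smul_cancel hA0 (by rw [ha1, smul_zero]) (by rw [hy1, smul_zero])
      have v2 : cp P v.1 = 0 := smul_cancel hB0 (by rw [ha2, smul_zero]) (by rw [hy2, smul_zero])
      have h5 : v.1 = 0 := by rw [← add_cp P v.1, v1, v2, add_zero]
      exact Prod.ext h5 hv2)
    (prim_smooth (P := P) hG hA hB)
    (fun s z hz v hv => by
      obtain ⟨hv2, hv1⟩ := hTn z hz v hv
      have hq := mem_Sph.1 hz.1
      have p := hpt s z hz
      obtain ⟨k, -, hk2⟩ := diso_fst (P := P) hG hA hB s z v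
      have hay := p.ay
      rw [real_inner_comm] at hay
      rw [dprim hG hA hB, hk2, inner_add_right, inner_smul_right, inner_smul_right]
      have h0 : (iso P G A B (s, z)).2 = xy P A B (s, z) := rfl
      rw [h0, hay, mul_zero, zero_add, dxa hA hB]
      have hy : xy P A B (s, z) = (A (s, tau P z.1)).im • P z.1 +
        (B (s, tau P z.1)).im • cp P z.1 := rfl
      have pp := hP.P_sq hq
      have qq := tau_eq P z.1
      have ppv : (inner ℝ (P z.1) (P v.1) : ℝ) = -inner ℝ (cp P z.1) (cp P v.1) := by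
        rw [hP.inner_P, hv1, zero_sub]
      have hG3 : G (1 + ‖xy P A B (s, z)‖ ^ 2) = G (1 + ((A (s, tau P z.1)).im ^ 2 *
          (1 - tau P z.1) + (B (s, tau P z.1)).im ^ 2 * tau P z.1)) := by
        rw [p.y2]
      rw [hG3, hy]
      simp only [inner_add_left, inner_add_right, inner_smul_left, inner_smul_right, pp, qq, ppv,
        hP.P_orth, hP.orth_P, dens]
      simp
      ring)
  -- the end points
  have h0 : ∀ z ∈ Zs E, iso P G A B (0, z) = z := by
    intro z hz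
    have hq := mem_Sph.1 hz.1
    have hτ := hP.tau_mem hq
    have hA0 := hF.A0 _ hτ
    have hB0 := hF.B0 _ hτ
    have hy : xy P A B (0, z) = 0 := by
      have : xy P A B (0, z) = (A (0, tau P z.1)).im • P z.1 + (B (0, tau P z.1)).im • cp P z.1 := rfl
      rw [this, hA0, hB0]
      simp
    have ha : xa P A B (0, z) = z.1 := by
      have : xa P A B (0, z) = (A (0, tau P z.1)).re • P z.1 + (B (0, tau P z.1)).re • cp P z.1 := rfl
      rw [this, hA0, hB0]
      simp only [Complex.one_re, one_smul]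
      exact add_cp P z.1
    have : iso P G A B (0, z) = (G (1 + ‖xy P A B (0, z)‖ ^ 2) • xa P A B (0, z), xy P A B (0, z)) := rfl
    rw [this, hy, ha, hG1 _ (by simp; norm_num)]
    simp only [norm_zero]
    refine Prod.ext ?_ hz.2.symm
    simp
  have h1 : ∀ z, z ∈ L ↔ ∃ q, ‖q‖ = 1 ∧ iso P G A B (1, (q, 0)) = z := by
    intro z
    rw [hL]
    constructor
    · rintro ⟨hz1, hz2, a, b, ha, hb, hPa, hPb, hab1, hab2, τ, hτ, hcτ⟩
      have hab : (inner ℝ a b : ℝ) = 0 := by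
        rw [← hPa, hP.symm, hPb, inner_zero_right]
      have ho : Orth a b := ⟨ha, hb, hab⟩
      have hsq : 0 < 1 + ‖z.2‖ ^ 2 := by positivity
      have hrel := ho.wt_rel ⟨hz1, hab1, hab2, hz2⟩
      have hC1 := hF.C1 τ hτ
      have hr1 := hF.rel 1 τ hτ
      have w1 : wt a z ^ 2 = A (1, τ) ^ 2 * ((1 - τ : ℝ) : ℂ) := by
        push_cast
        rw [hcτ] at hC1
        linear_combination -hC1 / 2
      have w2 : wt b z ^ 2 = B (1, τ) ^ 2 * ((τ : ℝ) : ℂ) := by
        push_cast at w1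
        linear_combination hrel - w1 - hr1
      obtain ⟨m, hm, hm1⟩ := sq_root (by linarith [hτ.2]) w1
      obtain ⟨m', hm', hm1'⟩ := sq_root hτ.1 w2
      set q : E := m • a + m' • b with hq
      have hPq : P q = m • a := by
        rw [hq, map_add, map_smul, map_smul, hPa, hPb, smul_zero, add_zero]
      have hQq : cp P q = m' • b := by
        rw [cp_apply, hPq, hq]
        abel
      have htq : tau P q = τ := by
        unfold tau
        rw [hQq, norm_smul, hb, mul_one, Real.norm_eq_abs, sq_abs, hm']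
      have hqn : ‖q‖ = 1 := by
        rw [← sq_eq_sq₀ (norm_nonneg _) zero_le_one, ← real_inner_self_eq_norm_sq, hq]
        simp only [inner_add_left, inner_add_right, inner_smul_left, inner_smul_right, ho.vv, ho.ww,
          ho.vw, ho.wv]
        simp
        linear_combination hm + hm'
      refine ⟨q, hqn, ?_⟩
      have p := hF.pt hP 1 (z := (q, (0 : E))) hqn
      have a1 : inner ℝ a z.1 * √(1 + ‖z.2‖ ^ 2) = m * (A (1, τ)).re := by
        rw [← wt_re, hm1]
        simp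
      have a2 : inner ℝ a z.2 = m * (A (1, τ)).im := by
        rw [← wt_im, hm1]
        simp
      have b1 : inner ℝ b z.1 * √(1 + ‖z.2‖ ^ 2) = m' * (B (1, τ)).re := by
        rw [← wt_re, hm1']
        simp
      have b2 : inner ℝ b z.2 = m' * (B (1, τ)).im := by
        rw [← wt_im, hm1']
        simp
      have hy : xy P A B (1, (q, (0 : E))) = z.2 := by
        have : xy P A B (1, (q, (0 : E))) = (A (1, tau P q)).im • P q +
          (B (1, tau P q)).im • cp P q := rfl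
        rw [this, htq, hPq, hQq, smul_smul, smul_smul, mul_comm, ← a2, mul_comm, ← b2]
        exact hab2.symm
      have hx : xa P A B (1, (q, (0 : E))) = √(1 + ‖z.2‖ ^ 2) • z.1 := by
        have : xa P A B (1, (q, (0 : E))) = (A (1, tau P q)).re • P q +
          (B (1, tau P q)).re • cp P q := rfl
        rw [this, htq, hPq, hQq, smul_smul, smul_smul, mul_comm (A (1, τ)).re m, ← a1,
          mul_comm (B (1, τ)).re m', ← b1]
        conv_rhs => rw [hab1]
        rw [smul_add, smul_smul, smul_smul, mul_comm √(1 + ‖z.2‖ ^ 2) (inner ℝ a z.1),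
          mul_comm √(1 + ‖z.2‖ ^ 2) (inner ℝ b z.1)]
      have : iso P G A B (1, (q, (0 : E))) = (G (1 + ‖xy P A B (1, (q, (0 : E)))‖ ^ 2) •
        xa P A B (1, (q, (0 : E))), xy P A B (1, (q, (0 : E)))) := rfl
      rw [this, p.Gval hG1, hy, hx, smul_smul, inv_mul_cancel₀ (Real.sqrt_pos.2 hsq).ne', one_smul]
    · rintro ⟨q, hq, rfl⟩
      have p := hF.pt hP 1 (z := (q, (0 : E))) hq
      have hτ := hP.tau_mem hq
      have key : ∀ (x y₀ : E) (R : E → Prop), ‖y₀‖ = 1 → R y₀ → (∀ k : ℝ, R (k • x)) →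
          ∃ u : E, ‖u‖ = 1 ∧ R u ∧ ∃ k : ℝ, x = k • u := by
        intro x y₀ R hy₀ hR hRx
        by_cases h2 : x = 0
        · exact ⟨y₀, hy₀, hR, 0, by rw [h2, zero_smul]⟩
        · refine ⟨‖x‖⁻¹ • x, ?_, hRx _, ‖x‖, ?_⟩
          · rw [norm_smul, norm_inv, norm_norm]
            exact inv_mul_cancel₀ (norm_ne_zero_iff.2 h2)
          · rw [smul_smul, mul_inv_cancel₀ (norm_ne_zero_iff.2 h2), one_smul]
      obtain ⟨a, ha, hPa, k, hk⟩ := key (P q) a₀ (fun x => P x = x) ha₀ hPa₀ (fun k => by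
        rw [map_smul, hP.idem])
      obtain ⟨b, hb, hPb, k', hk'⟩ := key (cp P q) b₀ (fun x => P x = 0) hb₀ hPb₀ (fun k => by
        rw [map_smul, hP.P_cp, smul_zero])
      have hab : (inner ℝ a b : ℝ) = 0 := by
        rw [← hPa, hP.symm, hPb, inner_zero_right]
      have ho : Orth a b := ⟨ha, hb, hab⟩
      refine ⟨p.norm hG1, p.orth, a, b, ha, hb, hPa, hPb, ?_, ?_, tau P q, hτ, ?_⟩
      · refine InPl.smul ha hb hab (G (1 + ‖xy P A B (1, (q, (0 : E)))‖ ^ 2) *
          ((A (1, tau P q)).re * k)) (G (1 + ‖xy P A B (1, (q, (0 : E)))‖ ^ 2) *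
          ((B (1, tau P q)).re * k')) ?_
        have : (iso P G A B (1, (q, (0 : E)))).1 = G (1 + ‖xy P A B (1, (q, (0 : E)))‖ ^ 2) •
          ((A (1, tau P q)).re • P q + (B (1, tau P q)).re • cp P q) := rfl
        rw [this, hk, hk', smul_add, smul_smul, smul_smul, smul_smul, smul_smul, mul_assoc,
          mul_assoc]
      · refine InPl.smul ha hb hab ((A (1, tau P q)).im * k) ((B (1, tau P q)).im * k') ?_
        have : (iso P G A B (1, (q, (0 : E)))).2 = (A (1, tau P q)).im • P q +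
          (B (1, tau P q)).im • cp P q := rfl
        rw [this, hk, hk', smul_smul, smul_smul]
      · have hkk : k ^ 2 = 1 - tau P q := by
          rw [← hP.P_sq hq, hk, inner_smul_left, inner_smul_right, ho.vv]
          simp
          ring
        have hkk' : (k : ℂ) ^ 2 = 1 - (tau P q : ℂ) := by exact_mod_cast hkk
        have haP : ∀ x, (inner ℝ a x : ℝ) = inner ℝ a (P x) := by
          intro x
          rw [← hP.symm, hPa]
        have r1 : (wt a (iso P G A B (1, (q, (0 : E))))).re = (A (1, tau P q)).re * k := by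
          rw [wt_re, mul_comm, ← inner_smul_right, ← p.inv hG1, haP, p.pa]
          change inner ℝ a ((A (1, tau P q)).re • P q) = (A (1, tau P q)).re * k
          rw [hk, inner_smul_right, inner_smul_right, ho.vv, mul_one]
        have r2 : (wt a (iso P G A B (1, (q, (0 : E))))).im = (A (1, tau P q)).im * k := by
          rw [wt_im]
          change inner ℝ a (xy P A B (1, (q, (0 : E)))) = (A (1, tau P q)).im * k
          rw [haP, p.py]
          change inner ℝ a ((A (1, tau P q)).im • P q) = (A (1, tau P q)).im * k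
          rw [hk, inner_smul_right, inner_smul_right, ho.vv, mul_one]
        have r3 : wt a (iso P G A B (1, (q, (0 : E)))) = A (1, tau P q) * k := by
          apply Complex.ext
          · rw [r1]
            simp
          · rw [r2]
            simp
        rw [← hF.C1 _ hτ, r3, mul_pow, hkk']
  refine ⟨iso P G A B, iso_smooth hG hA hB,
    fun s z hz => cot_sph.2 ⟨(hpt s z hz).norm hG1, (hpt s z hz).orth⟩, h0, fun w => ?_,
    fun g hg s z _ => iso_equiv P G A B hg s z, H, φ, hH, hφ, hφι⟩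
  rw [h1]
  constructor
  · rintro ⟨q, hq, hw⟩
    exact ⟨(q, 0), ⟨mem_Sph.2 hq, rfl⟩, hw⟩
  · rintro ⟨z, hz, hw⟩
    refine ⟨z.1, mem_Sph.1 hz.1, ?_⟩
    rw [← hw]
    congr 2
    exact Prod.ext rfl hz.2.symm

theorem IsIso.image {C : (E ≃ₗᵢ[ℝ] E) → Prop} {L : Set (E × E)} {ι : ℝ × (E × E) → E × E}
    (h : IsIso C L ι) {φ : ℝ → E × E → E × E}
    (hφ : ∀ s ∈ Icc (0 : ℝ) 1, ∀ z ∈ Zs E, φ s (ι (0, z)) = ι (s, z)) :
    φ 1 '' {z | z.1 ∈ Sph E ∧ z.2 = 0} = L := by
  ext w
  rw [h.one]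
  constructor
  · rintro ⟨y, hy, rfl⟩
    have hyZ : y ∈ Zs E := hy
    refine ⟨y, hyZ, ?_⟩
    have h2 := hφ 1 ⟨zero_le_one, le_refl 1⟩ y hyZ
    rw [h.zero y hyZ] at h2
    exact h2.symm
  · rintro ⟨y, hy, rfl⟩
    refine ⟨y, hy, ?_⟩
    have h2 := hφ 1 ⟨zero_le_one, le_refl 1⟩ y hy
    rw [h.zero y hy] at h2
    exact h2

theorem IsIso.hamIsotopic {C : (E ≃ₗᵢ[ℝ] E) → Prop} {L : Set (E × E)}
    {ι : ℝ × (E × E) → E × E} (h : IsIso C L ι) : HamIsotopicToZero (Sph E) L := by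
  obtain ⟨H, φ, hH, hφ, hφι⟩ := h.ham
  exact ⟨H, φ, hH, hφ, h.image hφι⟩

/-- Equivariant Hamiltonian isotopy. -/
theorem IsIso.exists_ham {C : (E ≃ₗᵢ[ℝ] E) → Prop} {L : Set (E × E)} {ι : ℝ × (E × E) → E × E}
    (h : IsIso C L ι) {Γ : Type} [Group Γ] [TopologicalSpace Γ] [IsTopologicalGroup Γ]
    [CompactSpace Γ] (σ : Γ →* (E ≃ₗᵢ[ℝ] E)) (hσ : ∀ x, Continuous fun g => σ g x)
    (hΓ : ∀ g, C (σ g)) :
    ∃ (H : ℝ × (E × E) → ℝ) (φ : ℝ → E × E → E × E), IsHam (Sph E) H ∧
      (∀ g s z, H (s, act (σ g) z) = H (s, z)) ∧ IsHamFlow (Sph E) H φ ∧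
      φ 1 '' {z | z.1 ∈ Sph E ∧ z.2 = 0} = L := by
  obtain ⟨H, φ, hH, hφ, hφι⟩ := h.ham
  obtain ⟨UQ, r, hr⟩ := exists_sph_ret (E := E)
  have cQ : IsCompact (Sph E) := isCompact_sphere _ _
  obtain ⟨H', φ', a1, a2, a3, a4⟩ := ham_avg hr cQ σ hσ (fun g q hq =>
    mem_Sph.2 (((σ g).norm_map q).trans (mem_Sph.1 hq))) h.smooth h.mem
    (fun g s z hz => ⟨act_Zs (σ g) hz, h.equiv (σ g) (hΓ g) s z hz⟩) hH hφ hφι
  exact ⟨H', φ', a1, a2, a3, h.image a4⟩

end Vale.Agent.P220.R2.H180.T
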