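import Vale.Agent.P220.R2.H180.Arc
import Vale.Agent.P220.R2.H180.T.Fam

/-!
# The exact isotopy of the zero section given by a family of arcs and a splitting
-/

open Set Filter Topology
open scoped ContDiff

set_option linter.unusedSectionVars false

namespace Vale.Agent.P220.R2.H180.T

open H57

variable {E : Type} [NormedAddCommGroup E] [InnerProductSpace ℝ E] [FiniteDimensional ℝ E]

/-- an orthogonal projection -/
structure IsPr (P : E →L[ℝ] E) : Prop where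
  idem : ∀ x, P (P x) = P x
  symm : ∀ x y, (inner ℝ (P x) y : ℝ) = inner ℝ x (P y)

/-- the complementary projection -/
noncomputable def cp (P : E →L[ℝ] E) : E →L[ℝ] E := ContinuousLinearMap.id ℝ E - P

theorem cp_apply (P : E →L[ℝ] E) (x : E) : cp P x = x - P x := rfl

theorem add_cp (P : E →L[ℝ] E) (x : E) : P x + cp P x = x := by rw [cp_apply]; abel

namespace IsPr

variable {P : E →L[ℝ] E} (hP : IsPr P)

include hP

theorem P_cp (x : E) : P (cp P x) = 0 := by rw [cp_apply, map_sub, hP.idem, sub_self]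

theorem cp_P (x : E) : cp P (P x) = 0 := by rw [cp_apply, hP.idem, sub_self]

theorem cp_cp (x : E) : cp P (cp P x) = cp P x := by rw [cp_apply P (cp P x), hP.P_cp, sub_zero]

theorem compl : IsPr (cp P) := by
  refine ⟨hP.cp_cp, fun x y => ?_⟩
  rw [cp_apply, cp_apply, inner_sub_left, inner_sub_right, hP.symm]

theorem P_orth (x y : E) : (inner ℝ (P x) (cp P y) : ℝ) = 0 := by
  rw [hP.symm, hP.P_cp, inner_zero_right]

theorem orth_P (x y : E) : (inner ℝ (cp P x) (P y) : ℝ) = 0 := by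
  rw [real_inner_comm, hP.P_orth]

theorem inner_P (x y : E) : (inner ℝ (P x) (P y) : ℝ) = inner ℝ x y - inner ℝ (cp P x) (cp P y) := by
  have h1 : (inner ℝ x y : ℝ) = inner ℝ (P x + cp P x) (P y + cp P y) := by rw [add_cp, add_cp]
  rw [h1, inner_add_left, inner_add_right, inner_add_right, hP.P_orth, hP.orth_P]
  ring

end IsPr

/-- the height -/
noncomputable def tau (P : E →L[ℝ] E) (x : E) : ℝ := ‖cp P x‖ ^ 2

theorem tau_eq (P : E →L[ℝ] E) (x : E) : (inner ℝ (cp P x) (cp P x) : ℝ) = tau P x :=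
  real_inner_self_eq_norm_sq _

namespace IsPr

variable {P : E →L[ℝ] E} (hP : IsPr P)

include hP

theorem P_sq {q : E} (hq : ‖q‖ = 1) : (inner ℝ (P q) (P q) : ℝ) = 1 - tau P q := by
  rw [hP.inner_P, tau_eq, e_e hq]

theorem tau_mem {q : E} (hq : ‖q‖ = 1) : tau P q ∈ Icc (0 : ℝ) 1 := by
  have h1 := hP.P_sq hq
  rw [real_inner_self_eq_norm_sq] at h1
  have h2 := sq_nonneg ‖P q‖
  have h3 : 0 ≤ tau P q := sq_nonneg _
  exact ⟨h3, by linarith⟩

end IsPr

/-- real part -/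
noncomputable def xa (P : E →L[ℝ] E) (A B : ℝ × ℝ → ℂ) (x : ℝ × (E × E)) : E :=
  (A (x.1, tau P x.2.1)).re • P x.2.1 + (B (x.1, tau P x.2.1)).re • cp P x.2.1

/-- imaginary part -/
noncomputable def xy (P : E →L[ℝ] E) (A B : ℝ × ℝ → ℂ) (x : ℝ × (E × E)) : E :=
  (A (x.1, tau P x.2.1)).im • P x.2.1 + (B (x.1, tau P x.2.1)).im • cp P x.2.1

/-- the isotopy -/
noncomputable def iso (P : E →L[ℝ] E) (G : ℝ → ℝ) (A B : ℝ × ℝ → ℂ) (x : ℝ × (E × E)) : E × E :=
  (G (1 + ‖xy P A B x‖ ^ 2) • xa P A B x, xy P A B x)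

/-- the density of the primitive -/
noncomputable def dens (G : ℝ → ℝ) (A B : ℝ × ℝ → ℂ) (x : ℝ × ℝ) : ℝ :=
  ((A x).im * (fderiv ℝ A x (0, 1)).re * (1 - x.2) - (A x).im * (A x).re / 2 +
    ((B x).im * (fderiv ℝ B x (0, 1)).re * x.2 + (B x).im * (B x).re / 2)) *
    G (1 + ((A x).im ^ 2 * (1 - x.2) + (B x).im ^ 2 * x.2))

/-- the primitive -/
noncomputable def prim (P : E →L[ℝ] E) (G : ℝ → ℝ) (A B : ℝ × ℝ → ℂ) (x : ℝ × (E × E)) : ℝ :=
  ∫ r in (0 : ℝ)..(tau P x.2.1), dens G A B (x.1, r)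

section

variable {P : E →L[ℝ] E} {G : ℝ → ℝ} {c : ℝ → ℂ} {A B : ℝ × ℝ → ℂ}

theorem tau_smooth (P : E →L[ℝ] E) : ContDiff ℝ ∞ (tau P) :=
  (contDiff_norm_sq ℝ).comp (cp P).contDiff

theorem st_smooth (P : E →L[ℝ] E) :
    ContDiff ℝ ∞ fun x : ℝ × (E × E) => ((x.1, tau P x.2.1) : ℝ × ℝ) :=
  contDiff_fst.prodMk ((tau_smooth P).comp (contDiff_fst.comp contDiff_snd))

theorem xa_smooth (hA : ContDiff ℝ ∞ A) (hB : ContDiff ℝ ∞ B) : ContDiff ℝ ∞ (xa P A B) :=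
  ((Complex.reCLM.contDiff.comp (hA.comp (st_smooth P))).smul
      (P.contDiff.comp (contDiff_fst.comp contDiff_snd))).add
    ((Complex.reCLM.contDiff.comp (hB.comp (st_smooth P))).smul
      ((cp P).contDiff.comp (contDiff_fst.comp contDiff_snd)))

theorem xy_smooth (hA : ContDiff ℝ ∞ A) (hB : ContDiff ℝ ∞ B) : ContDiff ℝ ∞ (xy P A B) :=
  ((Complex.imCLM.contDiff.comp (hA.comp (st_smooth P))).smul
      (P.contDiff.comp (contDiff_fst.comp contDiff_snd))).add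
    ((Complex.imCLM.contDiff.comp (hB.comp (st_smooth P))).smul
      ((cp P).contDiff.comp (contDiff_fst.comp contDiff_snd)))

theorem iso_smooth (hG : ContDiff ℝ ∞ G) (hA : ContDiff ℝ ∞ A) (hB : ContDiff ℝ ∞ B) :
    ContDiff ℝ ∞ (iso P G A B) :=
  ((hG.comp (contDiff_const.add ((contDiff_norm_sq ℝ).comp (xy_smooth hA hB)))).smul
    (xa_smooth hA hB)).prodMk (xy_smooth hA hB)

theorem dens_smooth (hG : ContDiff ℝ ∞ G) (hA : ContDiff ℝ ∞ A) (hB : ContDiff ℝ ∞ B) :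
    ContDiff ℝ ∞ (dens G A B) := by
  have c1 : ContDiff ℝ ∞ fun x => (A x).im := Complex.imCLM.contDiff.comp hA
  have c1' : ContDiff ℝ ∞ fun x => (A x).re := Complex.reCLM.contDiff.comp hA
  have c2 : ContDiff ℝ ∞ fun x => (B x).im := Complex.imCLM.contDiff.comp hB
  have c3 : ContDiff ℝ ∞ fun x => (B x).re := Complex.reCLM.contDiff.comp hB
  have c4 : ContDiff ℝ ∞ fun x => (fderiv ℝ A x (0, 1)).re := Complex.reCLM.contDiff.comp
    ((hA.fderiv_right (m := ∞) (by simp)).clm_apply contDiff_const)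
  have c5 : ContDiff ℝ ∞ fun x => (fderiv ℝ B x (0, 1)).re := Complex.reCLM.contDiff.comp
    ((hB.fderiv_right (m := ∞) (by simp)).clm_apply contDiff_const)
  have c6 : ContDiff ℝ ∞ fun x : ℝ × ℝ => 1 - x.2 := contDiff_const.sub contDiff_snd
  have c7 : ContDiff ℝ ∞ fun x : ℝ × ℝ => x.2 := contDiff_snd
  exact ((((c1.mul c4).mul c6).sub ((c1.mul c1').div_const 2)).add
    (((c2.mul c5).mul c7).add ((c2.mul c3).div_const 2))).mul
    (hG.comp (contDiff_const.add (((c1.pow 2).mul c6).add ((c2.pow 2).mul c7))))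

theorem prim_smooth (hG : ContDiff ℝ ∞ G) (hA : ContDiff ℝ ∞ A) (hB : ContDiff ℝ ∞ B) :
    ContDiff ℝ ∞ (prim P G A B) :=
  (H64.contDiff_primitive (dens_smooth hG hA hB)).comp (st_smooth P)

/-- all data on the zero section -/
structure Pt (P : E →L[ℝ] E) (A B : ℝ × ℝ → ℂ) (s : ℝ) (z : E × E) : Prop where
  a2 : ‖xa P A B (s, z)‖ ^ 2 = 1 + ‖xy P A B (s, z)‖ ^ 2
  ay : inner ℝ (xa P A B (s, z)) (xy P A B (s, z)) = (0 : ℝ)
  y2 : ‖xy P A B (s, z)‖ ^ 2 = (A (s, tau P z.1)).im ^ 2 * (1 - tau P z.1) +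
    (B (s, tau P z.1)).im ^ 2 * tau P z.1
  pa : P (xa P A B (s, z)) = (A (s, tau P z.1)).re • P z.1
  py : P (xy P A B (s, z)) = (A (s, tau P z.1)).im • P z.1
  qa : cp P (xa P A B (s, z)) = (B (s, tau P z.1)).re • cp P z.1
  qy : cp P (xy P A B (s, z)) = (B (s, tau P z.1)).im • cp P z.1

theorem IsFam.pt (hF : IsFam c A B) (hP : IsPr P) (s : ℝ) {z : E × E} (hz : ‖z.1‖ = 1) :
    Pt P A B s z := by
  have hτ := hP.tau_mem hz
  have hrel := hF.rel s _ hτ
  have pp := hP.P_sq hz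
  have qq := tau_eq P z.1
  have pq := hP.P_orth z.1 z.1
  have qp := hP.orth_P z.1 z.1
  set τ := tau P z.1 with hτd
  set X := A (s, τ) with hX
  set Y := B (s, τ) with hY
  have h1 := congrArg Complex.re hrel
  have h2 := congrArg Complex.im hrel
  simp only [sq, Complex.add_re, Complex.mul_re, Complex.add_im, Complex.mul_im, Complex.ofReal_re,
    Complex.ofReal_im, Complex.sub_re, Complex.sub_im, Complex.one_re, Complex.one_im] at h1 h2
  have ha : xa P A B (s, z) = X.re • P z.1 + Y.re • cp P z.1 := rfl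
  have hy : xy P A B (s, z) = X.im • P z.1 + Y.im • cp P z.1 := rfl
  have ha2 : ‖xa P A B (s, z)‖ ^ 2 = X.re ^ 2 * (1 - τ) + Y.re ^ 2 * τ := by
    rw [← real_inner_self_eq_norm_sq, ha]
    simp only [inner_add_left, inner_add_right, inner_smul_left, inner_smul_right, pp, qq, pq, qp]
    simp
    ring
  have hy2 : ‖xy P A B (s, z)‖ ^ 2 = X.im ^ 2 * (1 - τ) + Y.im ^ 2 * τ := by
    rw [← real_inner_self_eq_norm_sq, hy]
    simp only [inner_add_left, inner_add_right, inner_smul_left, inner_smul_right, pp, qq, pq, qp]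
    simp
    ring
  refine ⟨?_, ?_, hy2, ?_, ?_, ?_, ?_⟩
  · rw [ha2, hy2]
    linear_combination h1
  · rw [ha, hy]
    simp only [inner_add_left, inner_add_right, inner_smul_left, inner_smul_right, pp, qq, pq, qp]
    simp
    linear_combination h2 / 2
  · rw [ha, map_add, map_smul, map_smul, hP.idem, hP.P_cp, smul_zero, add_zero]
  · rw [hy, map_add, map_smul, map_smul, hP.idem, hP.P_cp, smul_zero, add_zero]
  · rw [ha, map_add, map_smul, map_smul, hP.cp_cp, hP.cp_P, smul_zero, zero_add]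
  · rw [hy, map_add, map_smul, map_smul, hP.cp_cp, hP.cp_P, smul_zero, zero_add]

theorem Pt.Gval {s : ℝ} {z : E × E} (_ : Pt P A B s z) (hG : ∀ t, 1 / 4 ≤ t → G t = (√t)⁻¹) :
    G (1 + ‖xy P A B (s, z)‖ ^ 2) = (√(1 + ‖xy P A B (s, z)‖ ^ 2))⁻¹ :=
  hG _ (by nlinarith [sq_nonneg ‖xy P A B (s, z)‖])

theorem Pt.norm {s : ℝ} {z : E × E} (h : Pt P A B s z) (hG : ∀ t, 1 / 4 ≤ t → G t = (√t)⁻¹) :
    ‖(iso P G A B (s, z)).1‖ = 1 := by
  have h0 : 0 < 1 + ‖xy P A B (s, z)‖ ^ 2 := by positivity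
  show ‖G (1 + ‖xy P A B (s, z)‖ ^ 2) • xa P A B (s, z)‖ = 1
  rw [h.Gval hG, norm_smul, norm_inv, Real.norm_eq_abs, abs_of_nonneg (Real.sqrt_nonneg _), ← h.a2,
    Real.sqrt_sq (norm_nonneg _)]
  refine inv_mul_cancel₀ ?_
  intro h1
  have := h.a2
  rw [h1] at this
  nlinarith [sq_nonneg ‖xy P A B (s, z)‖]

theorem Pt.orth {s : ℝ} {z : E × E} (h : Pt P A B s z) :
    inner ℝ (iso P G A B (s, z)).1 (iso P G A B (s, z)).2 = (0 : ℝ) := by
  show inner ℝ (G (1 + ‖xy P A B (s, z)‖ ^ 2) • xa P A B (s, z)) (xy P A B (s, z)) = (0 : ℝ)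
  rw [inner_smul_left, h.ay, mul_zero]

theorem Pt.inv {s : ℝ} {z : E × E} (h : Pt P A B s z) (hG : ∀ t, 1 / 4 ≤ t → G t = (√t)⁻¹) :
    xa P A B (s, z) = √(1 + ‖(iso P G A B (s, z)).2‖ ^ 2) • (iso P G A B (s, z)).1 := by
  have h0 : 0 < 1 + ‖xy P A B (s, z)‖ ^ 2 := by positivity
  show xa P A B (s, z) = √(1 + ‖xy P A B (s, z)‖ ^ 2) • G (1 + ‖xy P A B (s, z)‖ ^ 2) •
    xa P A B (s, z)
  rw [h.Gval hG, smul_smul, mul_inv_cancel₀ (Real.sqrt_pos.2 h0).ne', one_smul]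

/-! ### derivatives -/

theorem clm_line (R : E →L[ℝ] E) (z v : E × E) :
    HasDerivAt (fun t : ℝ => R (z + t • v).1) (R v.1) 0 := by
  have h1 : (fun t : ℝ => R (z + t • v).1) = fun t : ℝ => R z.1 + t • R v.1 := by
    funext t
    simp only [Prod.fst_add, Prod.smul_fst, map_add, map_smul]
  rw [h1]
  simpa using ((hasDerivAt_id (0 : ℝ)).smul_const (R v.1)).const_add (R z.1)

theorem tau_line (P : E →L[ℝ] E) (z v : E × E) :
    HasDerivAt (fun t : ℝ => tau P (z + t • v).1) (2 * inner ℝ (cp P z.1) (cp P v.1)) 0 := by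
  have h1 := (clm_line (cp P) z v).norm_sq
  simp only [zero_smul, add_zero] at h1
  exact h1

theorem A_line (hA : ContDiff ℝ ∞ A) (P : E →L[ℝ] E) (s : ℝ) (z v : E × E) :
    HasDerivAt (fun t : ℝ => A (s, tau P (z + t • v).1))
      ((2 * inner ℝ (cp P z.1) (cp P v.1) : ℝ) • fderiv ℝ A (s, tau P z.1) (0, 1)) 0 := by
  have h1 : HasFDerivAt A (fderiv ℝ A (s, tau P z.1))
      ((fun t : ℝ => ((s, tau P (z + t • v).1) : ℝ × ℝ)) 0) := by
    simp only [zero_smul, add_zero]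
    exact (hA.differentiable (by simp) _).hasFDerivAt
  have h2 := h1.comp_hasDerivAt (0 : ℝ) ((hasDerivAt_const (0 : ℝ) s).prodMk (tau_line P z v))
  refine h2.congr_deriv ?_
  rw [← map_smul]
  simp

theorem dxa (hA : ContDiff ℝ ∞ A) (hB : ContDiff ℝ ∞ B) (s : ℝ) (z v : E × E) :
    fderiv ℝ (xa P A B) (s, z) (0, v) =
      ((A (s, tau P z.1)).re • P v.1 + (2 * inner ℝ (cp P z.1) (cp P v.1) *
        (fderiv ℝ A (s, tau P z.1) (0, 1)).re) • P z.1) +
      ((B (s, tau P z.1)).re • cp P v.1 + (2 * inner ℝ (cp P z.1) (cp P v.1) *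
        (fderiv ℝ B (s, tau P z.1) (0, 1)).re) • cp P z.1) := by
  have h1 := fderiv_line (xa_smooth (P := P) hA hB) s z v
  have h2 : HasDerivAt (fun t : ℝ => (A (s, tau P (z + t • v).1)).re) _ 0 :=
    Complex.reCLM.hasFDerivAt.comp_hasDerivAt (0 : ℝ) (A_line hA P s z v)
  have h3 : HasDerivAt (fun t : ℝ => (B (s, tau P (z + t • v).1)).re) _ 0 :=
    Complex.reCLM.hasFDerivAt.comp_hasDerivAt (0 : ℝ) (A_line hB P s z v)
  have h4 := (h2.smul (clm_line P z v)).add (h3.smul (clm_line (cp P) z v))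
  have h5 := h1.unique h4
  rw [h5]
  simp

theorem dxy (hA : ContDiff ℝ ∞ A) (hB : ContDiff ℝ ∞ B) (s : ℝ) (z v : E × E) :
    fderiv ℝ (xy P A B) (s, z) (0, v) =
      ((A (s, tau P z.1)).im • P v.1 + (2 * inner ℝ (cp P z.1) (cp P v.1) *
        (fderiv ℝ A (s, tau P z.1) (0, 1)).im) • P z.1) +
      ((B (s, tau P z.1)).im • cp P v.1 + (2 * inner ℝ (cp P z.1) (cp P v.1) *
        (fderiv ℝ B (s, tau P z.1) (0, 1)).im) • cp P z.1) := by
  have h1 := fderiv_line (xy_smooth (P := P) hA hB) s z v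
  have h2 : HasDerivAt (fun t : ℝ => (A (s, tau P (z + t • v).1)).im) _ 0 :=
    Complex.imCLM.hasFDerivAt.comp_hasDerivAt (0 : ℝ) (A_line hA P s z v)
  have h3 : HasDerivAt (fun t : ℝ => (B (s, tau P (z + t • v).1)).im) _ 0 :=
    Complex.imCLM.hasFDerivAt.comp_hasDerivAt (0 : ℝ) (A_line hB P s z v)
  have h4 := (h2.smul (clm_line P z v)).add (h3.smul (clm_line (cp P) z v))
  have h5 := h1.unique h4
  rw [h5]
  simp

theorem diso_snd (hG : ContDiff ℝ ∞ G) (hA : ContDiff ℝ ∞ A) (hB : ContDiff ℝ ∞ B) (s : ℝ)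
    (z v : E × E) :
    (fderiv ℝ (iso P G A B) (s, z) (0, v)).2 = fderiv ℝ (xy P A B) (s, z) (0, v) := by
  have h1 := fderiv_line (iso_smooth (P := P) hG hA hB) s z v
  have h2 : HasDerivAt (fun t : ℝ => (iso P G A B (s, z + t • v)).2) _ 0 :=
    hasFDerivAt_snd.comp_hasDerivAt (0 : ℝ) h1
  exact h2.unique (fderiv_line (xy_smooth (P := P) hA hB) s z v)

theorem diso_fst (hG : ContDiff ℝ ∞ G) (hA : ContDiff ℝ ∞ A) (hB : ContDiff ℝ ∞ B) (s : ℝ)
    (z v : E × E) : ∃ k : ℝ, (fderiv ℝ (xy P A B) (s, z) (0, v) = 0 → k = 0) ∧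
    (fderiv ℝ (iso P G A B) (s, z) (0, v)).1 = k • xa P A B (s, z) +
      G (1 + ‖xy P A B (s, z)‖ ^ 2) • fderiv ℝ (xa P A B) (s, z) (0, v) := by
  have h1 := fderiv_line (iso_smooth (P := P) hG hA hB) s z v
  have h2 : HasDerivAt (fun t : ℝ => (iso P G A B (s, z + t • v)).1) _ 0 :=
    hasFDerivAt_fst.comp_hasDerivAt (0 : ℝ) h1
  have hy := fderiv_line (xy_smooth (P := P) hA hB) s z v
  have ha := fderiv_line (xa_smooth (P := P) hA hB) s z v
  have h3 := (hy.norm_sq).const_add 1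
  have h4 : HasDerivAt G (deriv G (1 + ‖xy P A B (s, z + (0 : ℝ) • v)‖ ^ 2))
      (1 + ‖xy P A B (s, z + (0 : ℝ) • v)‖ ^ 2) := (hG.differentiable (by simp) _).hasDerivAt
  have h5 := h4.comp (0 : ℝ) h3
  have h6 := h5.smul ha
  have h7 := h2.unique h6
  refine ⟨deriv G (1 + ‖xy P A B (s, z)‖ ^ 2) *
      (2 * inner ℝ (xy P A B (s, z)) (fderiv ℝ (xy P A B) (s, z) (0, v))), fun h => by
    rw [h]
    simp, h7.trans ?_⟩
  simp only [Function.comp_apply, zero_smul, add_zero]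
  rw [add_comm]

theorem dprim (hG : ContDiff ℝ ∞ G) (hA : ContDiff ℝ ∞ A) (hB : ContDiff ℝ ∞ B) (s : ℝ)
    (z v : E × E) : fderiv ℝ (prim P G A B) (s, z) (0, v) =
      dens G A B (s, tau P z.1) * (2 * inner ℝ (cp P z.1) (cp P v.1)) := by
  have h1 := fderiv_line (prim_smooth (P := P) hG hA hB) s z v
  have hc : Continuous fun r : ℝ => dens G A B (s, r) :=
    (dens_smooth hG hA hB).continuous.comp (by fun_prop)
  have h2 : HasDerivAt (fun y => ∫ r in (0 : ℝ)..y, dens G A B (s, r))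
      (dens G A B (s, tau P (z + (0 : ℝ) • v).1)) (tau P (z + (0 : ℝ) • v).1) :=
    intervalIntegral.integral_hasDerivAt_right (hc.intervalIntegrable _ _)
      (hc.stronglyMeasurableAtFilter _ _) hc.continuousAt
  have h3 := h2.comp (0 : ℝ) (tau_line P z v)
  have h4 := h1.unique h3
  rw [h4]
  simp

end

end Vale.Agent.P220.R2.H180.T
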