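import Vale.Agent.P220.R2.H180.T.Arc
import Vale.Agent.P220.R2.H180.T.Ham

/-!
# Closed exact Lagrangians over the sphere with a reducible symmetry group
-/

open Set Filter Topology
open scoped ContDiff

set_option linter.unusedSectionVars false

namespace Vale.Agent.P220.R2.H180.T

open H57

variable {E : Type} [NormedAddCommGroup E] [InnerProductSpace ℝ E] [FiniteDimensional ℝ E]

theorem cp_cp' (P : E →L[ℝ] E) : cp (cp P) = P := by
  unfold cp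
  abel

/-- the reflection in the plane on the first vector -/
theorem refl_left {e u a : E} (h : Orth e u) (hua : inner ℝ u a = (0 : ℝ)) :
    (Pl e u).reflection a = (2 * inner ℝ e a : ℝ) • e - a := by
  set d : E := a - (inner ℝ e a : ℝ) • e with hd
  have h1 : d ∈ (Pl e u)ᗮ := by
    rw [Submodule.mem_orthogonal]
    intro v hv
    obtain ⟨x, y, rfl⟩ := Submodule.mem_span_pair.1 hv
    rw [inner_add_left, inner_smul_left, inner_smul_left, hd, inner_sub_right, inner_sub_right,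
      inner_smul_right, inner_smul_right, h.vv, h.wv, hua]
    ring
  have h2 : a = (inner ℝ e a : ℝ) • e + d := by rw [hd]; abel
  have h3 : (Pl e u).reflection e = e := h.refl_eq.2 (InPl.smul h.v1 h.w1 h.vw 1 0 (by simp))
  conv_lhs => rw [h2]
  rw [map_add, map_smul, h3, mem_Pl_orth.1 h1, hd]
  module

theorem Pl_swap (e u : E) : Pl e u = Pl u e := by
  unfold Pl
  rw [Set.pair_comm]

theorem refl_right {e u b : E} (h : Orth e u) (heb : inner ℝ e b = (0 : ℝ)) :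
    (Pl e u).reflection b = (2 * inner ℝ u b : ℝ) • u - b := by
  have h1 := refl_left (swap h) heb
  have h2 : ∀ (M N : Submodule ℝ E) (_ : M = N) (x : E), M.reflection x = N.reflection x := by
    rintro M N rfl x
    rfl
  rw [h2 _ _ (Pl_swap e u)]
  exact h1

/-- **The isotopy.** -/
theorem core {P : E →L[ℝ] E} (hP : IsPr P) {e u : E} (h : Orth e u) (hPe : P e = e)
    (hPu : P u = 0) {n : ℕ} (hn : Module.finrank ℝ E = n + 1)
    {L : Set (E × E)} (hL : IsClosedExactLagrangian n (Sph E) L)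
    (hinv : ∀ g : E ≃ₗᵢ[ℝ] E, (∀ x, P x = 0 → g x = x) → ∀ z ∈ L, (g z.1, g z.2) ∈ L)
    (hinv' : ∀ g : E ≃ₗᵢ[ℝ] E, (∀ x, P x = x → g x = x) → ∀ z ∈ L, (g z.1, g z.2) ∈ L)
    (hplane : ∀ z ∈ L, ∃ a b, Orth a b ∧ P a = a ∧ P b = 0 ∧ InPl a b z.1 ∧ InPl a b z.2) :
    ∃ ι, IsIso (fun g => ∀ x, P (g x) = g (P x)) L ι := by
  have move : ∀ a b a' b' : E, ‖a‖ = 1 → ‖b‖ = 1 → ‖a'‖ = 1 → ‖b'‖ = 1 → P a = a → P b = 0 →
      P a' = a' → P b' = 0 → ∃ g : E ≃ₗᵢ[ℝ] E, g a = a' ∧ g b = b' ∧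
      (∀ z ∈ L, (g z.1, g z.2) ∈ L) ∧ ∀ z : E × E, (g z.1, g z.2) ∈ L → z ∈ L := by
    intro a b a' b' ha hb ha' hb' hPa hPb hPa' hPb'
    obtain ⟨g₁, hg₁, g₁a, g₁g, -⟩ := hP.exchange ha ha' hPa hPa'
    obtain ⟨g₂, hg₂, g₂b, g₂g, -⟩ := hP.compl.exchange hb hb' (hP.ker_iff.1 hPb)
      (hP.ker_iff.1 hPb')
    have hg₂' : ∀ x, P x = x → g₂ x = x := fun x hx => hg₂ x (hP.ran_iff.1 hx)
    refine ⟨g₁.trans g₂, ?_, ?_, fun z hz => ?_, fun z hz => ?_⟩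
    · show g₂ (g₁ a) = a'
      rw [g₁a, hg₂' _ hPa']
    · show g₂ (g₁ b) = b'
      rw [hg₁ _ hPb, g₂b]
    · exact hinv' g₂ hg₂' _ (hinv g₁ hg₁ z hz)
    · have h1 := hinv g₁ hg₁ _ (hinv' g₂ hg₂' _ hz)
      have e1 : ∀ x, g₁ (g₂ ((g₁.trans g₂) x)) = x := fun x => by
        show g₁ (g₂ (g₂ (g₁ x))) = x
        rw [g₂g, g₁g]
      simp only [e1] at h1
      exact h1
  have hRL : ∀ z ∈ L, RR e u z ∈ L := by
    intro z hz
    obtain ⟨a, b, ho, hPa, hPb, z1, z2⟩ := hplane z hz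
    have ra := refl_left h (a := a) (hP.perp' hPa hPu)
    have rb := refl_right h (b := b) (hP.perp hPe hPb)
    obtain ⟨g, ga, gb, gL, -⟩ := move a b ((Pl e u).reflection a) ((Pl e u).reflection b) ho.v1 ho.w1
      (((Pl e u).reflection.norm_map a).trans ho.v1) (((Pl e u).reflection.norm_map b).trans ho.w1)
      hPa hPb (by rw [ra, map_sub, map_smul, hPe, hPa]) (by rw [rb, map_sub, map_smul, hPu, hPb]; simp)
    have hg : ∀ x, InPl a b x → g x = (Pl e u).reflection x := by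
      intro x hx
      unfold InPl at hx
      rw [hx, map_add, map_smul, map_smul, ga, gb, map_add, map_smul, map_smul]
    have h1 := gL z hz
    rw [hg _ z1, hg _ z2] at h1
    exact h1
  have hSL : ∀ z ∈ L, SS u z ∈ L := fun z hz =>
    hinv' (Refl u) (fun x hx => by
      rw [Refl_apply h.w1, hP.perp' hx hPu]
      simp) z hz
  have hSL' : ∀ z ∈ L, SS e z ∈ L := fun z hz =>
    hinv (Refl e) (fun x hx => by
      rw [Refl_apply h.v1, hP.perp hPe hx]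
      simp) z hz
  have hmove : ∀ z ∈ L, ∀ a b, Orth a b → P a = a → P b = 0 → InPl a b z.1 → InPl a b z.2 →
      ∃ g : E ≃ₗᵢ[ℝ] E, g a = e ∧ (g z.1, g z.2) ∈ Slc e u L := by
    intro z hz a b ho hPa hPb h4 h5
    obtain ⟨g, ga, gb, gL, -⟩ := move a b e u ho.v1 ho.w1 h.v1 h.w1 hPa hPb hPe hPu
    exact ⟨g, ga, gL z hz, h.RR_eq.2 ⟨inPl_map ga gb h4, inPl_map ga gb h5⟩⟩
  have hne : (Slc e u L).Nonempty := by
    obtain ⟨z, hz⟩ := hL.nonempty
    obtain ⟨a, b, ho, hPa, hPb, h4, h5⟩ := hplane z hz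
    obtain ⟨g, -, hg⟩ := hmove z hz a b ho hPa hPb h4 h5
    exact ⟨_, hg⟩
  have hS := h.slice_closed hn hL hRL hne
  have hInT : ∀ z ∈ Slc e u L, InT e u z := by
    intro z hz
    obtain ⟨h4, h5⟩ := cot_sph.1 (hL.sub hz.1)
    obtain ⟨h6, h7⟩ := h.RR_eq.1 hz.2
    exact ⟨h4, h6, h7, h5⟩
  have hSS : ∀ z ∈ Slc e u L, SS u z ∈ Slc e u L := by
    intro z hz
    have h4 := h.InT_SS (hInT z hz)
    exact ⟨hSL z hz.1, h.RR_eq.2 ⟨h4.p1, h4.p2⟩⟩
  have hSS' : ∀ z ∈ Slc e u L, SS e z ∈ Slc e u L := by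
    intro z hz
    have h4 := InT_SSe h (hInT z hz)
    exact ⟨hSL' z hz.1, h.RR_eq.2 ⟨h4.p1, h4.p2⟩⟩
  obtain ⟨D, hDQ, hDL, hDX⟩ := exists_base' h.circ_closed hS (h.slice_emb hS.sub)
  obtain ⟨Λ⟩ := D.exists_leaf
  obtain ⟨γ, hγ, hγ'⟩ := exists_curve h Λ hDQ hDX (by rw [hDL]; exact hSS) (by rw [hDL]; exact hSS')
  rw [hDL] at hγ
  obtain ⟨c, hc, hc1, hc2⟩ := exists_arc hγ hγ' h hInT
  refine arc_iso hP h.v1 h.w1 hPe hPu hc fun z => ?_
  constructor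
  · intro hz
    obtain ⟨h4, h5⟩ := cot_sph.1 (hL.sub hz)
    obtain ⟨a, b, ho, hPa, hPb, h6, h7⟩ := hplane z hz
    refine ⟨h4, h5, a, b, ho.v1, ho.w1, hPa, hPb, h6, h7, ?_⟩
    obtain ⟨g, ga, hg⟩ := hmove z hz a b ho hPa hPb h6 h7
    obtain ⟨τ, hτ, hcτ⟩ := hc1 _ hg
    exact ⟨τ, hτ, by rw [hcτ, wt_map ga]⟩
  · rintro ⟨h4, h5, a, b, ha, hb, hPa, hPb, h6, h7, τ, hτ, hcτ⟩
    obtain ⟨z₀, hz₀, hwz₀⟩ := hc2 τ hτ
    obtain ⟨g, ga, gb, -, gL⟩ := move a b e u ha hb h.v1 h.w1 hPa hPb hPe hPu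
    have hT : InT e u (g z.1, g z.2) :=
      ⟨(g.norm_map _).trans h4, inPl_map ga gb h6, inPl_map ga gb h7,
        (g.inner_map_map _ _).trans h5⟩
    refine gL z ?_
    have hsq : wt e (g z.1, g z.2) ^ 2 = wt e z₀ ^ 2 := by
      rw [wt_map ga]
      linear_combination (hwz₀ + hcτ) / (-2)
    rcases sq_eq_sq_iff_eq_or_eq_neg.1 hsq with h8 | h8
    · rcases h.eq_or_of_wt hT (hInT z₀ hz₀) h8 with h9 | h9
      · rw [h9]
        exact hz₀.1
      · rw [h9]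
        exact hSL _ hz₀.1
    · rw [← wt_SSe h] at h8
      rcases h.eq_or_of_wt hT (InT_SSe h (hInT z₀ hz₀)) h8 with h9 | h9
      · rw [h9]
        exact hSL' _ hz₀.1
      · rw [h9]
        exact hSL _ (hSL' _ hz₀.1)

/-! ### subspaces -/

theorem isPr_sub (K : Submodule ℝ E) : IsPr K.starProjection := by
  refine ⟨fun x => ?_, fun x y => Submodule.inner_starProjection_left_eq_right K x y⟩
  exact Submodule.starProjection_eq_self_iff.2 (Submodule.starProjection_apply_mem K x)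

theorem exists_unit {K : Submodule ℝ E} (hK : 1 ≤ Module.finrank ℝ K) : ∃ x ∈ K, ‖x‖ = 1 := by
  have h1 : K ≠ ⊥ := by
    rintro rfl
    rw [finrank_bot] at hK
    omega
  obtain ⟨x, hx, hx0⟩ := Submodule.exists_mem_ne_zero_of_ne_bot h1
  exact ⟨‖x‖⁻¹ • x, K.smul_mem _ hx, unit_of_ne hx0⟩

theorem exists_perp {K : Submodule ℝ E} (hK : 2 ≤ Module.finrank ℝ K) {a : E} (ha : ‖a‖ = 1)
    (haK : a ∈ K) : ∃ c ∈ K, ‖c‖ = 1 ∧ inner ℝ a c = (0 : ℝ) := by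
  by_contra hne
  push Not at hne
  have h1 : Module.finrank ℝ K ≤ 1 := by
    refine finrank_le_one (⟨a, haK⟩ : K) ?_
    rintro ⟨w, hw⟩
    refine ⟨inner ℝ a w, Subtype.ext ?_⟩
    show (inner ℝ a w : ℝ) • a = w
    by_contra hd
    have hd0 : w - (inner ℝ a w : ℝ) • a ≠ 0 := sub_ne_zero.2 (Ne.symm hd)
    refine hne (‖w - (inner ℝ a w : ℝ) • a‖⁻¹ • (w - (inner ℝ a w : ℝ) • a))
      (K.smul_mem _ (K.sub_mem hw (K.smul_mem _ haK))) (unit_of_ne hd0) ?_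
    rw [inner_smul_right, inner_sub_right, inner_smul_right, e_e ha]
    ring
  omega

/-- a subspace of dimension at most one is contained in a line -/
theorem exists_axis {K : Submodule ℝ E} (hK : Module.finrank ℝ K ≤ 1)
    (hE : 1 ≤ Module.finrank ℝ E) : ∃ e : E, ‖e‖ = 1 ∧ ∀ x ∈ K, ∃ k : ℝ, x = k • e := by
  obtain ⟨v, hv⟩ := finrank_le_one_iff.1 hK
  by_cases hv0 : (v : E) = 0
  · obtain ⟨e, -, he⟩ := exists_unit (K := (⊤ : Submodule ℝ E)) (by rw [finrank_top]; exact hE)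
    refine ⟨e, he, fun x hx => ⟨0, ?_⟩⟩
    obtain ⟨c, hc⟩ := hv ⟨x, hx⟩
    have h1 : c • (v : E) = x := congrArg Subtype.val hc
    rw [← h1, hv0, smul_zero, zero_smul]
  · refine ⟨_, unit_of_ne hv0, fun x hx => ?_⟩
    obtain ⟨c, hc⟩ := hv ⟨x, hx⟩
    have h1 : c • (v : E) = x := congrArg Subtype.val hc
    refine ⟨c * ‖(v : E)‖, ?_⟩
    rw [← h1, mul_smul, eq_unit hv0]

end Vale.Agent.P220.R2.H180.T
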