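import Vale.Agent.P220.R2.H180.T.Main

/-!
# Lagrangians with vanishing moments are invariant
-/

open Set Filter Topology
open scoped ContDiff

set_option linter.unusedSectionVars false

namespace Vale.Agent.P220.R2.H180.T

open H57

variable {E : Type} [NormedAddCommGroup E] [InnerProductSpace ℝ E] [FiniteDimensional ℝ E]

/-- tangent vectors of a subset of `T*S` -/
theorem tan_cot {L UL : Set (E × E)} {ρ : E × E → E × E} (hL : IsRet L UL ρ)
    (hsub : L ⊆ Cot (Sph E)) {z : E × E} (hz : z ∈ L) {v : E × E} (hv : v ∈ Tn ρ z) :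
    inner ℝ z.1 v.1 = (0 : ℝ) ∧ (inner ℝ z.1 v.2 + inner ℝ z.2 v.1 : ℝ) = 0 := by
  rw [← hL.mem_Tan hz] at hv
  obtain ⟨c, hc, hcS, h0, hdc⟩ := hv
  have h5 : HasDerivAt c v 0 := by
    rw [← hdc]
    exact (hc.differentiable (by simp) 0).hasDerivAt
  have h6 : HasDerivAt (fun t => (c t).1) v.1 0 := (hasFDerivAt_fst (𝕜 := ℝ) (p := c 0)).comp_hasDerivAt (0 : ℝ) h5
  have h7 : HasDerivAt (fun t => (c t).2) v.2 0 := (hasFDerivAt_snd (𝕜 := ℝ) (p := c 0)).comp_hasDerivAt (0 : ℝ) h5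
  constructor
  · have h8 := h6.inner ℝ h6
    have h9 : (fun t => inner ℝ (c t).1 (c t).1 : ℝ → ℝ) = fun _ => 1 := by
      funext t
      rw [real_inner_self_eq_norm_sq, (cot_sph.1 (hsub (hcS t))).1]
      norm_num
    rw [h9, h0] at h8
    have h10 := h8.unique (hasDerivAt_const _ _)
    rw [real_inner_comm z.1 v.1] at h10
    linarith
  · have h8 := h6.inner ℝ h7
    have h9 : (fun t => inner ℝ (c t).1 (c t).2 : ℝ → ℝ) = fun _ => 0 := by
      funext t
      exact (cot_sph.1 (hsub (hcS t))).2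
    rw [h9, h0] at h8
    have h10 := h8.unique (hasDerivAt_const _ _)
    rw [real_inner_comm z.2 v.1] at h10
    exact h10

/-- a Lagrangian subspace is maximal isotropic -/
theorem mem_of_om {n : ℕ} (hn : Module.finrank ℝ E = n + 1) {q p : E} (hq : ‖q‖ = 1)
    {T : Submodule ℝ (E × E)} (hT : Module.finrank ℝ T = n)
    (hiso : ∀ v ∈ T, ∀ w ∈ T, (inner ℝ v.2 w.1 : ℝ) = inner ℝ w.2 v.1)
    (htan : ∀ v ∈ T, inner ℝ q v.1 = (0 : ℝ) ∧ (inner ℝ q v.2 + inner ℝ p v.1 : ℝ) = 0)
    {X : E × E} (hX1 : inner ℝ q X.1 = (0 : ℝ)) (hX2 : (inner ℝ q X.2 + inner ℝ p X.1 : ℝ) = 0)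
    (hom : ∀ v ∈ T, (inner ℝ v.2 X.1 : ℝ) = inner ℝ X.2 v.1) : X ∈ T := by
  by_contra hX
  set T₁ : Submodule ℝ (E × E) := T ⊔ Submodule.span ℝ {X} with hT₁
  set T₂ : Submodule ℝ (E × E) := T₁ ⊔ Submodule.span ℝ {((0, q) : E × E)} with hT₂
  have hXT : X ∈ T₁ := Submodule.mem_sup_right (Submodule.mem_span_singleton_self X)
  have hqT : ((0, q) : E × E) ∈ T₂ :=
    Submodule.mem_sup_right (Submodule.mem_span_singleton_self _)
  have h1 : T < T₁ := lt_of_le_of_ne le_sup_left fun h => hX (h ▸ hXT)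
  have hzero : ∀ v ∈ T₁, (inner ℝ q v.2 + inner ℝ p v.1 : ℝ) = 0 := by
    intro v hv
    obtain ⟨t, ht, y, hy, rfl⟩ := Submodule.mem_sup.1 hv
    obtain ⟨a, rfl⟩ := Submodule.mem_span_singleton.1 hy
    simp only [Prod.fst_add, Prod.snd_add, Prod.smul_fst, Prod.smul_snd, inner_add_right,
      inner_smul_right]
    linear_combination (htan t ht).2 + a * hX2
  have h2 : T₁ < T₂ := lt_of_le_of_ne le_sup_left fun h => by
    have h3 := hzero _ (h.symm ▸ hqT)
    simp only [inner_zero_right, add_zero, e_e hq] at h3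
    exact one_ne_zero h3
  have f1 := Submodule.finrank_lt_finrank_of_lt h1
  have f2 := Submodule.finrank_lt_finrank_of_lt h2
  have f3 : Module.finrank ℝ T₂ ≤ Module.finrank ℝ (⊤ : Submodule ℝ E) := by
    refine finrank_isotropic (fun x _ => ⟨Submodule.mem_top, Submodule.mem_top⟩) ?_
    intro v hv w hw
    obtain ⟨v₁, hv₁, y, hy, rfl⟩ := Submodule.mem_sup.1 hv
    obtain ⟨t, ht, y', hy', rfl⟩ := Submodule.mem_sup.1 hv₁
    obtain ⟨a, rfl⟩ := Submodule.mem_span_singleton.1 hy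
    obtain ⟨b, rfl⟩ := Submodule.mem_span_singleton.1 hy'
    obtain ⟨w₁, hw₁, x, hx, rfl⟩ := Submodule.mem_sup.1 hw
    obtain ⟨s, hs, x', hx', rfl⟩ := Submodule.mem_sup.1 hw₁
    obtain ⟨c, rfl⟩ := Submodule.mem_span_singleton.1 hx
    obtain ⟨d, rfl⟩ := Submodule.mem_span_singleton.1 hx'
    simp only [Prod.fst_add, Prod.snd_add, Prod.smul_fst, Prod.smul_snd, inner_add_right,
      inner_smul_right, inner_add_left, inner_smul_left, conj_trivial, smul_zero,
      inner_zero_right]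
    have e1 := hiso t ht s hs
    have e2 := hom t ht
    have e3 := hom s hs
    have e4 := (htan t ht).1
    have e5 := (htan s hs).1
    linear_combination e1 + d * e2 - b * e3 + a * e5 - c * e4 + (a * d - b * c) * hX1
  rw [finrank_top, hn] at f3
  omega

/-- **A Lagrangian with vanishing moments is invariant.** -/
theorem rot_of_mom {n : ℕ} (hn : Module.finrank ℝ E = n + 1) {L : Set (E × E)}
    (hL : IsClosedExactLagrangian n (Sph E) L) {v w : E} (ho : Orth v w)
    (hm : ∀ z ∈ L, (inner ℝ v z.1 * inner ℝ w z.2 : ℝ) = inner ℝ w z.1 * inner ℝ v z.2) (t : ℝ) :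
    ∀ z ∈ L, (rtE v w t z.1, rtE v w t z.2) ∈ L := by
  obtain ⟨U, ρ, hρ, hd⟩ := exists_ret hL.mfd hL.compact
  obtain ⟨f, hf, hex⟩ := hL.exact
  set Y : E × E → E × E := fun z => (XF v w z.1, XF v w z.2) with hY
  have hXs : ContDiff ℝ ∞ (XF v w) :=
    ((contDiff_const.inner ℝ contDiff_id).smul contDiff_const).sub
      ((contDiff_const.inner ℝ contDiff_id).smul contDiff_const)
  have hYs : ContDiff ℝ ∞ Y := (hXs.comp contDiff_fst).prodMk (hXs.comp contDiff_snd)
  have hT : ∀ z ∈ L, Y z ∈ Tn ρ z := by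
    intro z hz
    obtain ⟨h1, h2⟩ := cot_sph.1 (hL.sub hz)
    refine mem_of_om hn (q := z.1) (p := z.2) h1 (hd z hz)
      (fun a ha b hb => isotropic hρ hf (fun z hz v hv => hex z hz v ((hρ.mem_Tan hz).2 hv)) hz ha hb)
      (fun a ha => tan_cot hρ hL.sub hz ha) (ho.orth_XF _) ?_ ?_
    · simp only [hY, XF]
      rw [inner_sub_right, inner_sub_right, inner_smul_right, inner_smul_right, inner_smul_right,
        inner_smul_right, real_inner_comm w z.1, real_inner_comm v z.1, real_inner_comm w z.2,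
        real_inner_comm v z.2]
      ring
    · intro a ha
      rw [← hρ.mem_Tan hz] at ha
      obtain ⟨c, hc, hcS, h0, hdc⟩ := ha
      have h5 : HasDerivAt c a 0 := by
        rw [← hdc]
        exact (hc.differentiable (by simp) 0).hasDerivAt
      have h6 : HasDerivAt (fun t => (c t).1) a.1 0 := (hasFDerivAt_fst (𝕜 := ℝ) (p := c 0)).comp_hasDerivAt (0 : ℝ) h5
      have h7 : HasDerivAt (fun t => (c t).2) a.2 0 := (hasFDerivAt_snd (𝕜 := ℝ) (p := c 0)).comp_hasDerivAt (0 : ℝ) h5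
      have g1 : ∀ x : E, HasDerivAt (fun t => (inner ℝ x (c t).1 : ℝ)) (inner ℝ x a.1) 0 := by
        intro x
        simpa using (hasDerivAt_const (0 : ℝ) x).inner ℝ h6
      have g2 : ∀ x : E, HasDerivAt (fun t => (inner ℝ x (c t).2 : ℝ)) (inner ℝ x a.2) 0 := by
        intro x
        simpa using (hasDerivAt_const (0 : ℝ) x).inner ℝ h7
      have g3 := ((g1 v).mul (g2 w)).sub ((g1 w).mul (g2 v))
      have g4 : (fun t => (inner ℝ v (c t).1 * inner ℝ w (c t).2 -
          inner ℝ w (c t).1 * inner ℝ v (c t).2 : ℝ)) = fun _ => 0 := by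
        funext t
        exact sub_eq_zero.2 (hm _ (hcS t))
      have g5 : HasDerivAt (fun t => (inner ℝ v (c t).1 * inner ℝ w (c t).2 -
          inner ℝ w (c t).1 * inner ℝ v (c t).2 : ℝ)) _ 0 := g3
      rw [g4] at g5
      have g6 := g5.unique (hasDerivAt_const _ _)
      rw [h0] at g6
      simp only [hY, XF]
      rw [inner_sub_right, inner_sub_left, inner_smul_right, inner_smul_right, inner_smul_left,
        inner_smul_left, real_inner_comm w a.2, real_inner_comm v a.2]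
      simp only [conj_trivial]
      linear_combination g6
  intro z hz
  have key := hρ.curve_mem hYs hT (c := fun s => (rt v w s z.1, rt v w s z.2)) (fun s => by
    have h1 := (ho.rt_deriv z.1 s).prodMk (ho.rt_deriv z.2 s)
    refine h1.congr_deriv ?_
    have h2 : ∀ x : E, (-Real.sin s * inner ℝ v x - Real.cos s * inner ℝ w x) • v +
        (-Real.sin s * inner ℝ w x + Real.cos s * inner ℝ v x) • w = XF v w (rt v w s x) := by
      intro x
      unfold XF rt
      simp only [inner_add_right, inner_smul_right, ho.vv, ho.ww, ho.vw, ho.wv]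
      module
    exact Prod.ext (h2 z.1) (h2 z.2)) (t₀ := 0) (by
      simp only [rt, Real.cos_zero, Real.sin_zero, sub_self, zero_mul, zero_smul, add_zero]
      exact hz) t
  rwa [ho.rtE_apply, ho.rtE_apply]

theorem exists_angle {a b : ℝ} (h : a ^ 2 + b ^ 2 = 1) : ∃ t : ℝ, Real.cos t = a ∧ Real.sin t = b := by
  set w : ℂ := ⟨a, b⟩ with hw
  have hn : ‖w‖ = 1 := by
    rw [← sq_eq_sq₀ (norm_nonneg _) zero_le_one, ← Complex.normSq_eq_norm_sq,
      Complex.normSq_apply]
    simp only [hw]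
    linarith
  have hw0 : w ≠ 0 := by
    intro h4
    rw [h4, norm_zero] at hn
    exact zero_ne_one hn
  exact ⟨Complex.arg w, by rw [Complex.cos_arg hw0, hn, div_one],
    by rw [Complex.sin_arg, hn, div_one]⟩

/-- the moments of the rotations of the range of `P` vanish on `L` -/
def Mom (P : E →L[ℝ] E) (L : Set (E × E)) : Prop :=
  ∀ v w, Orth v w → P v = v → P w = w → ∀ z ∈ L,
    (inner ℝ v z.1 * inner ℝ w z.2 : ℝ) = inner ℝ w z.1 * inner ℝ v z.2

/-- vanishing moments imply invariance under all isometries of the range -/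
theorem IsPr.inv_of_mom {P : E →L[ℝ] E} (hP : IsPr P) {n : ℕ}
    (hn : Module.finrank ℝ E = n + 1) {L : Set (E × E)}
    (hL : IsClosedExactLagrangian n (Sph E) L) (hM : Mom P L) {e : E} (he : ‖e‖ = 1)
    (hPe : P e = e)
    (h2 : ∀ a, ‖a‖ = 1 → P a = a → ∃ c, ‖c‖ = 1 ∧ P c = c ∧ inner ℝ a c = (0 : ℝ))
    {g : E ≃ₗᵢ[ℝ] E} (hg : ∀ x, P x = 0 → g x = x) {z : E × E} (hz : z ∈ L) :
    (g z.1, g z.2) ∈ L := by
  obtain ⟨a, ha, hPa, a1, a2⟩ := hP.exists_line he hPe (x := z.1) (y := z.2)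
    (fun v w ho hv hw => hM v w ho hv hw z hz)
  have hga : ‖g a‖ = 1 := (g.norm_map a).trans ha
  have hPga : P (g a) = g a := by
    rw [hP.ran_iff]
    have h1 : (inner ℝ (cp P (g a)) (g a) : ℝ) = 0 := by
      have h3 : g (cp P (g a)) = cp P (g a) := hg _ (hP.P_cp _)
      rw [← h3, g.inner_map_map]
      exact hP.perp' hPa (hP.P_cp _)
    have h4 : (inner ℝ (cp P (g a)) (cp P (g a)) : ℝ) = 0 := by
      rw [hP.compl.symm, hP.cp_cp, ← hP.compl.symm]
      exact h1
    exact inner_self_eq_zero.1 h4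
  obtain ⟨w, b, hw, hPw, haw, hgab⟩ : ∃ (w : E) (b : ℝ), ‖w‖ = 1 ∧ P w = w ∧
      inner ℝ a w = (0 : ℝ) ∧ g a = (inner ℝ a (g a) : ℝ) • a + b • w := by
    by_cases hd : g a - (inner ℝ a (g a) : ℝ) • a = 0
    · obtain ⟨c, hc, hPc, hac⟩ := h2 a ha hPa
      refine ⟨c, 0, hc, hPc, hac, ?_⟩
      rw [zero_smul, add_zero]
      exact sub_eq_zero.1 hd
    · refine ⟨‖g a - (inner ℝ a (g a) : ℝ) • a‖⁻¹ • (g a - (inner ℝ a (g a) : ℝ) • a),
        ‖g a - (inner ℝ a (g a) : ℝ) • a‖, unit_of_ne hd, ?_, ?_, ?_⟩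
      · rw [map_smul, map_sub, map_smul, hPga, hPa]
      · rw [inner_smul_right, inner_sub_right, inner_smul_right, e_e ha]
        ring
      · rw [eq_unit hd]
        abel
  have ho : Orth a w := ⟨ha, hw, haw⟩
  set α : ℝ := inner ℝ a (g a) with hα
  have hαb : α ^ 2 + b ^ 2 = 1 := by
    have h1 := e_e hga
    rw [hgab] at h1
    simp only [inner_add_left, inner_add_right, inner_smul_left, inner_smul_right, ho.vv, ho.ww,
      ho.vw, ho.wv] at h1
    simp at h1
    linear_combination h1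
  obtain ⟨t, ht1, ht2⟩ := exists_angle hαb
  have h3 := rot_of_mom hn hL ho (hM a w ho hPa hPw) t z hz
  have h4 : ∀ x, P x = (inner ℝ a x : ℝ) • a → rtE a w t x = g x := by
    intro x hx
    have h5 : rtE a w t a = g a := by
      rw [ho.rtE_apply]
      unfold rt
      rw [ho.vv, ho.wv, ht1, ht2, hgab]
      module
    have h6 : rtE a w t (cp P x) = cp P x := by
      rw [ho.rtE_apply, ho.rt_fix (hP.perp hPa (hP.P_cp x)) (hP.perp hPw (hP.P_cp x))]
    have h7 : x = (inner ℝ a x : ℝ) • a + cp P x := by rw [← hx, add_cp]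
    conv_lhs => rw [h7]
    conv_rhs => rw [h7]
    rw [map_add, map_smul, h5, h6, map_add, map_smul, hg _ (hP.P_cp x)]
  rw [h4 _ a1, h4 _ a2] at h3
  exact h3

/-- the invariance under the isometries of a subspace of dimension at least two -/
theorem inv_sub {n : ℕ} (hn : Module.finrank ℝ E = n + 1)
    {L : Set (E × E)} (hL : IsClosedExactLagrangian n (Sph E) L) (M : Submodule ℝ E)
    (hM : Mom M.starProjection L) (hM2 : 2 ≤ Module.finrank ℝ M) (g : E ≃ₗᵢ[ℝ] E)
    (hg : ∀ x ∈ Mᗮ, g x = x) : ∀ z ∈ L, (g z.1, g z.2) ∈ L := by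
  intro z hz
  obtain ⟨e, heM, he⟩ := exists_unit (K := M) (by omega)
  refine (isPr_sub M).inv_of_mom hn hL hM he (Submodule.starProjection_eq_self_iff.2 heM) ?_
    (fun x hx => hg x ((Submodule.starProjection_apply_eq_zero_iff M).1 hx)) hz
  intro a ha hPa
  obtain ⟨c, hcM, hc, hac⟩ := exists_perp hM2 ha (Submodule.starProjection_eq_self_iff.1 hPa)
  exact ⟨c, hc, Submodule.starProjection_eq_self_iff.2 hcM, hac⟩

theorem cast_sub {M N : Submodule ℝ E} (h : M = N) {p : (E →L[ℝ] E) → Prop}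
    (hM : p M.starProjection) : p N.starProjection := by
  subst h
  exact hM

theorem cp_sub (K : Submodule ℝ E) : cp K.starProjection = Kᗮ.starProjection :=
  (Submodule.starProjection_orthogonal K).symm

/-- the planes -/
theorem plane_sub (K : Submodule ℝ E) (hK : 1 ≤ Module.finrank ℝ K)
    (hK' : 1 ≤ Module.finrank ℝ Kᗮ) {L : Set (E × E)} (hM : Mom K.starProjection L)
    (hM' : Mom Kᗮ.starProjection L) : ∀ z ∈ L, ∃ a b, Orth a b ∧ K.starProjection a = a ∧
      K.starProjection b = 0 ∧ InPl a b z.1 ∧ InPl a b z.2 := by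
  intro z hz
  have hP := isPr_sub K
  obtain ⟨e, heK, he⟩ := exists_unit hK
  obtain ⟨u, huK, hu⟩ := exists_unit hK'
  obtain ⟨a, ha, hPa, a1, a2⟩ := hP.exists_line he (Submodule.starProjection_eq_self_iff.2 heK)
    (x := z.1) (y := z.2) (fun v w ho hv hw => hM v w ho hv hw z hz)
  rw [← cp_sub] at hM'
  obtain ⟨b, hb, hPb, b1, b2⟩ := hP.compl.exists_line hu (by
    rw [cp_sub]
    exact Submodule.starProjection_eq_self_iff.2 huK) (x := z.1) (y := z.2)
    (fun v w ho hv hw => hM' v w ho hv hw z hz)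
  have hPb' := hP.ker_iff.2 hPb
  exact ⟨a, b, ⟨ha, hb, hP.perp hPa hPb'⟩, hPa, hPb', hP.inPl a1 b1, hP.inPl a2 b2⟩

/-- the isotopy, from the invariance -/
theorem core_sub (K : Submodule ℝ E) (hK : 1 ≤ Module.finrank ℝ K)
    (hK' : 1 ≤ Module.finrank ℝ Kᗮ) {n : ℕ} (hn : Module.finrank ℝ E = n + 1)
    {L : Set (E × E)} (hL : IsClosedExactLagrangian n (Sph E) L)
    (hM : Mom K.starProjection L) (hM' : Mom Kᗮ.starProjection L)
    (hinv : ∀ g : E ≃ₗᵢ[ℝ] E, (∀ x ∈ Kᗮ, g x = x) → ∀ z ∈ L, (g z.1, g z.2) ∈ L)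
    (hinv' : ∀ g : E ≃ₗᵢ[ℝ] E, (∀ x ∈ K, g x = x) → ∀ z ∈ L, (g z.1, g z.2) ∈ L) :
    ∃ ι, IsIso (fun g => ∀ x, K.starProjection (g x) = g (K.starProjection x)) L ι := by
  obtain ⟨e, heK, he⟩ := exists_unit hK
  obtain ⟨u, huK, hu⟩ := exists_unit hK'
  have heu : inner ℝ e u = (0 : ℝ) := Submodule.inner_right_of_mem_orthogonal heK huK
  refine core (isPr_sub K) ⟨he, hu, heu⟩ (Submodule.starProjection_eq_self_iff.2 heK)
    ((Submodule.starProjection_apply_eq_zero_iff K).2 huK) hn hL ?_ ?_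
    (plane_sub K hK hK' hM hM')
  · intro g hg
    exact hinv g fun x hx => hg x ((Submodule.starProjection_apply_eq_zero_iff K).2 hx)
  · intro g hg
    exact hinv' g fun x hx => hg x (Submodule.starProjection_eq_self_iff.2 hx)

/-- **The theorem with vanishing moments.** -/
theorem main_mom {n : ℕ} (hn : Module.finrank ℝ E = n + 1) (h1 : 1 ≤ n) (K : Submodule ℝ E)
    {L : Set (E × E)} (hL : IsClosedExactLagrangian n (Sph E) L)
    (hM : Mom K.starProjection L) (hM' : Mom Kᗮ.starProjection L) :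
    HamIsotopicToZero (Sph E) L := by
  rcases h1.eq_or_lt with h2 | h2
  · subst h2
    obtain ⟨e, -, he⟩ := exists_unit (K := (⊤ : Submodule ℝ E)) (by rw [finrank_top]; omega)
    obtain ⟨u, h⟩ := exists_orth he hn h1
    exact main_one hn h hL
  have hline : ∀ M : Submodule ℝ E, Mom Mᗮ.starProjection L → Module.finrank ℝ M ≤ 1 →
      HamIsotopicToZero (Sph E) L := by
    intro M hM hM1
    obtain ⟨e, he, hMe⟩ := exists_axis hM1 (by rw [hn]; omega)
    have h3 := M.finrank_add_finrank_orthogonal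
    refine H180.main hn h1 he hL fun g hg hd z hz => inv_sub hn hL Mᗮ hM (by omega) g ?_ z hz
    intro x hx
    rw [Submodule.orthogonal_orthogonal] at hx
    obtain ⟨k, rfl⟩ := hMe x hx
    rw [map_smul, hg]
  rcases Nat.lt_or_ge (Module.finrank ℝ K) 2 with hK | hK
  · exact hline K hM' (by omega)
  rcases Nat.lt_or_ge (Module.finrank ℝ Kᗮ) 2 with hK' | hK'
  · exact hline Kᗮ (cast_sub (p := fun P => Mom P L) K.orthogonal_orthogonal.symm hM) (by omega)
  obtain ⟨ι, hι⟩ := core_sub K (by omega) (by omega) hn hL hM hM' (inv_sub hn hL K hM hK)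
    (fun g hg => inv_sub hn hL Kᗮ hM' hK' g (fun x hx => hg x (by
      rwa [Submodule.orthogonal_orthogonal] at hx)))
  exact hι.hamIsotopic

/-- linearly dependent components have vanishing moments -/
theorem mom_of_dep (K : Submodule ℝ E) {L : Set (E × E)}
    (h : ∀ z ∈ L, ¬ LinearIndependent ℝ ![K.starProjection z.1, K.starProjection z.2]) :
    Mom K.starProjection L := by
  intro v w ho hv hw z hz
  have hP := isPr_sub K
  have h1 := h z hz
  rw [LinearIndependent.pair_iff] at h1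
  push Not at h1
  obtain ⟨s, t, hst, hne⟩ := h1
  have h2 : ∀ x : E, K.starProjection x = x →
      s * (inner ℝ x z.1 : ℝ) + t * (inner ℝ x z.2 : ℝ) = 0 := by
    intro x hx
    have h3 := congrArg (fun y => (inner ℝ x y : ℝ)) hst
    simp only [inner_add_right, inner_smul_right, hP.inner_of hx, inner_zero_right] at h3
    exact h3
  have h3 := h2 v hv
  have h4 := h2 w hw
  by_cases hs : s = 0
  · have ht := hne hs
    rw [hs] at h3 h4
    have h5 : (inner ℝ v z.2 : ℝ) = 0 := by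
      rcases mul_eq_zero.1 (show t * (inner ℝ v z.2 : ℝ) = 0 by linarith) with h6 | h6
      · exact absurd h6 ht
      · exact h6
    have h6 : (inner ℝ w z.2 : ℝ) = 0 := by
      rcases mul_eq_zero.1 (show t * (inner ℝ w z.2 : ℝ) = 0 by linarith) with h6 | h6
      · exact absurd h6 ht
      · exact h6
    rw [h5, h6]
    ring
  · refine mul_left_cancel₀ hs ?_
    linear_combination (inner ℝ w z.2 : ℝ) * h3 - (inner ℝ v z.2 : ℝ) * h4

/-- invariance implies vanishing moments -/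
theorem mom_of_inv (K : Submodule ℝ E) {n : ℕ} {L : Set (E × E)}
    (hL : IsClosedExactLagrangian n (Sph E) L)
    (hinv : ∀ g : E ≃ₗᵢ[ℝ] E, (∀ x ∈ Kᗮ, g x = x) →
      LinearMap.det (g.toLinearEquiv : E →ₗ[ℝ] E) = 1 → ∀ z ∈ L, (g z.1, g z.2) ∈ L) :
    Mom K.starProjection L := by
  intro v w ho hv hw z hz
  refine moment ho hL (fun t => (isPr_sub K).rot_mem (fun g hg hd z hz => hinv g (fun x hx =>
    hg x ((Submodule.starProjection_apply_eq_zero_iff K).2 hx)) hd z hz) ho hv hw t) hz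

end Vale.Agent.P220.R2.H180.T
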