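import Vale.Agent.P220.R2.H180.Main
import Vale.Agent.P220.R2.H180.T.Iso

/-!
# Invariance under the rotations of the two summands of a splitting
-/

open Set Filter Topology
open scoped ContDiff

set_option linter.unusedSectionVars false

namespace Vale.Agent.P220.R2.H180.T

open H57

variable {E : Type} [NormedAddCommGroup E] [InnerProductSpace ℝ E] [FiniteDimensional ℝ E]

/-- the moment map of the rotations in the plane of `v` and `w` vanishes -/
theorem moment {v w : E} (h : Orth v w) {n : ℕ}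
    {Q : Set E} {L : Set (E × E)} (hL : IsClosedExactLagrangian n Q L)
    (hr : ∀ t, ∀ z ∈ L, (rtE v w t z.1, rtE v w t z.2) ∈ L)
    {z : E × E} (hz : z ∈ L) : (inner ℝ v z.1 * inner ℝ w z.2 : ℝ) = inner ℝ w z.1 * inner ℝ v z.2 := by
  obtain ⟨f, hf, hex⟩ := hL.exact
  set γ : ℝ → E × E := fun t => (rt v w t z.1, rt v w t z.2) with hγ
  have hγs : ContDiff ℝ ∞ γ := (h.rt_smooth z.1).prodMk (h.rt_smooth z.2)
  have hγL : ∀ t, γ t ∈ L := by
    intro t
    have h1 := hr t z hz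
    rwa [h.rtE_apply, h.rtE_apply] at h1
  have hγd : ∀ t, HasDerivAt γ (((-Real.sin t * inner ℝ v z.1 - Real.cos t * inner ℝ w z.1) • v +
      (-Real.sin t * inner ℝ w z.1 + Real.cos t * inner ℝ v z.1) • w),
      ((-Real.sin t * inner ℝ v z.2 - Real.cos t * inner ℝ w z.2) • v +
      (-Real.sin t * inner ℝ w z.2 + Real.cos t * inner ℝ v z.2) • w)) t := fun t =>
    (h.rt_deriv z.1 t).prodMk (h.rt_deriv z.2 t)
  set k : ℝ := inner ℝ v z.1 * inner ℝ w z.2 - inner ℝ w z.1 * inner ℝ v z.2 with hk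
  have hfd : ∀ t, HasDerivAt (fun t => f (γ t) - t * k) 0 t := by
    intro t
    have h1 : HasDerivAt (fun t => f (γ t)) _ t :=
      (hf.differentiable (by simp) (γ t)).hasFDerivAt.comp_hasDerivAt t (hγd t)
    have h2 : (((-Real.sin t * inner ℝ v z.1 - Real.cos t * inner ℝ w z.1) • v +
      (-Real.sin t * inner ℝ w z.1 + Real.cos t * inner ℝ v z.1) • w),
      ((-Real.sin t * inner ℝ v z.2 - Real.cos t * inner ℝ w z.2) • v +
      (-Real.sin t * inner ℝ w z.2 + Real.cos t * inner ℝ v z.2) • w)) ∈ Tan L (γ t) := by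
      refine ⟨fun s => γ (t + s), hγs.comp (contDiff_const.add contDiff_id), fun s => hγL _,
        by simp, ?_⟩
      have h3 := (hγd (t + 0)).scomp (0 : ℝ) ((hasDerivAt_id (0 : ℝ)).const_add t)
      simp only [one_smul, add_zero] at h3
      exact h3.deriv
    rw [hex _ (hγL t) _ h2] at h1
    have h4 := h1.sub ((hasDerivAt_id t).mul_const k)
    refine h4.congr_deriv ?_
    simp only [lam, hγ, rt, inner_add_left, inner_add_right, inner_smul_left, inner_smul_right,
      h.vv, h.ww, h.vw, h.wv, hk, conj_trivial]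
    have h5 := Real.sin_sq_add_cos_sq t
    rw [real_inner_comm v z.2, real_inner_comm w z.2]
    linear_combination (inner ℝ v z.1 * inner ℝ w z.2 - inner ℝ w z.1 * inner ℝ v z.2) * h5
  have hc := is_const_of_deriv_eq_zero (fun t => (hfd t).differentiableAt)
    (fun t => (hfd t).deriv) (2 * Real.pi) 0
  have h0 : γ (2 * Real.pi) = γ 0 := by simp [hγ, rt]
  simp only [h0, zero_mul, sub_zero] at hc
  have h6 : 2 * Real.pi * k = 0 := by linarith
  have h7 : k = 0 := by
    rcases mul_eq_zero.1 h6 with h8 | h8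
    · exact absurd h8 (by positivity)
    · exact h8
  rw [hk] at h7
  linarith

/-- invariance under the rotations that fix the kernel of `P` -/
def Inv (P : E →L[ℝ] E) (L : Set (E × E)) : Prop :=
  ∀ g : E ≃ₗᵢ[ℝ] E, (∀ x, P x = 0 → g x = x) → LinearMap.det (g.toLinearEquiv : E →ₗ[ℝ] E) = 1 →
    ∀ z ∈ L, (g z.1, g z.2) ∈ L

theorem unit_of_ne {x : E} (hx : x ≠ 0) : ‖‖x‖⁻¹ • x‖ = 1 := by
  rw [norm_smul, norm_inv, norm_norm]
  exact inv_mul_cancel₀ (norm_ne_zero_iff.2 hx)

theorem eq_unit {x : E} (hx : x ≠ 0) : ‖x‖ • (‖x‖⁻¹ • x) = x := by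
  rw [smul_smul, mul_inv_cancel₀ (norm_ne_zero_iff.2 hx), one_smul]

theorem inner_unit {x : E} (hx : x ≠ 0) : (inner ℝ (‖x‖⁻¹ • x) x : ℝ) = ‖x‖ := by
  rw [inner_smul_left, real_inner_self_eq_norm_sq]
  have : ‖x‖ ≠ 0 := norm_ne_zero_iff.2 hx
  simp
  field_simp

namespace IsPr

variable {P : E →L[ℝ] E} (hP : IsPr P)

include hP

theorem inner_of {v x : E} (hv : P v = v) : (inner ℝ v (P x) : ℝ) = inner ℝ v x := by
  rw [← hP.symm, hv]

theorem perp {v x : E} (hv : P v = v) (hx : P x = 0) : (inner ℝ v x : ℝ) = 0 := by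
  rw [← hP.inner_of hv, hx, inner_zero_right]

theorem perp' {v x : E} (hv : P v = v) (hx : P x = 0) : (inner ℝ x v : ℝ) = 0 := by
  rw [real_inner_comm]
  exact hP.perp hv hx

/-- two vectors of the range with vanishing moments have a common direction -/
theorem exists_line {e₀ : E} (he₀ : ‖e₀‖ = 1) (hPe : P e₀ = e₀) {x y : E}
    (hm : ∀ v w, Orth v w → P v = v → P w = w →
      (inner ℝ v x * inner ℝ w y : ℝ) = inner ℝ w x * inner ℝ v y) :
    ∃ a, ‖a‖ = 1 ∧ P a = a ∧ P x = (inner ℝ a x : ℝ) • a ∧ P y = (inner ℝ a y : ℝ) • a := by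
  have hu : ∀ x, P (‖P x‖⁻¹ • P x) = ‖P x‖⁻¹ • P x := fun x => by rw [map_smul, hP.idem]
  by_cases h1 : P x = 0
  · by_cases h2 : P y = 0
    · refine ⟨e₀, he₀, hPe, ?_, ?_⟩
      · rw [hP.perp hPe h1, zero_smul, h1]
      · rw [hP.perp hPe h2, zero_smul, h2]
    · refine ⟨_, unit_of_ne h2, hu y, ?_, ?_⟩
      · rw [hP.perp (hu y) h1, zero_smul, h1]
      · rw [← hP.inner_of (hu y), inner_unit h2, eq_unit h2]
  · set a : E := ‖P x‖⁻¹ • P x with ha
    have ha1 : ‖a‖ = 1 := unit_of_ne h1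
    have hPa : P a = a := hu x
    have hax : (inner ℝ a x : ℝ) = ‖P x‖ := by
      rw [← hP.inner_of hPa]
      exact inner_unit h1
    refine ⟨a, ha1, hPa, ?_, ?_⟩
    · rw [hax]
      exact (eq_unit h1).symm
    · by_contra hne
      set d : E := P y - (inner ℝ a y : ℝ) • a with hd
      have hd0 : d ≠ 0 := sub_ne_zero.2 hne
      have hPd : P d = d := by rw [hd, map_sub, map_smul, hPa, hP.idem]
      have had : (inner ℝ a d : ℝ) = 0 := by
        rw [hd, inner_sub_right, inner_smul_right, e_e ha1, hP.inner_of hPa]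
        ring
      have hda : (inner ℝ d a : ℝ) = 0 := by rw [real_inner_comm]; exact had
      have hdy : (inner ℝ d y : ℝ) = ‖d‖ ^ 2 := by
        rw [← real_inner_self_eq_norm_sq]
        conv_rhs => rw [hd]
        rw [inner_sub_right, inner_smul_right, hP.inner_of hPd, ← hd, hda]
        ring
      set w : E := ‖d‖⁻¹ • d with hw
      have ho : Orth a w := ⟨ha1, unit_of_ne hd0, by rw [hw, inner_smul_right, had, mul_zero]⟩
      have hPw : P w = w := by rw [hw, map_smul, hPd]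
      have h5 := hm a w ho hPa hPw
      have h6 : (inner ℝ w x : ℝ) = 0 := by
        rw [← hP.inner_of hPw, ← eq_unit h1, ← ha, inner_smul_right, ho.wv, mul_zero]
      have h7 : (inner ℝ w y : ℝ) = ‖d‖ := by
        rw [hw, inner_smul_left, hdy]
        have : ‖d‖ ≠ 0 := norm_ne_zero_iff.2 hd0
        simp
        field_simp
      rw [h6, h7, hax, zero_mul] at h5
      rcases mul_eq_zero.1 h5 with h9 | h9
      · exact h1 (norm_eq_zero.1 h9)
      · exact hd0 (norm_eq_zero.1 h9)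

theorem inPl {a b x : E} (h1 : P x = (inner ℝ a x : ℝ) • a)
    (h2 : cp P x = (inner ℝ b x : ℝ) • b) : InPl a b x := by
  unfold InPl
  rw [← h1, ← h2, add_cp]

theorem ker_iff {x : E} : P x = 0 ↔ cp P x = x := by
  rw [cp_apply]
  constructor
  · intro h
    rw [h, sub_zero]
  · intro h
    have h2 := congrArg P h
    rw [map_sub, hP.idem, sub_self] at h2
    exact h2.symm

theorem ran_iff {x : E} : P x = x ↔ cp P x = 0 := by
  rw [cp_apply, sub_eq_zero]
  exact eq_comm

/-- rotations in a plane of the range -/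
theorem rot_mem {L : Set (E × E)} (hI : Inv P L) {v w : E} (ho : Orth v w) (hv : P v = v)
    (hw : P w = w) (t : ℝ) : ∀ z ∈ L, (rtE v w t z.1, rtE v w t z.2) ∈ L := by
  refine hI _ (fun x hx => ?_) (ho.rtE_det t)
  rw [ho.rtE_apply, ho.rt_fix (hP.perp hv hx) (hP.perp hw hx)]

/-- every point of `L` lies in a plane spanned by a vector of the range and one of the kernel -/
theorem exists_plane {e u : E} (he : ‖e‖ = 1) (hu : ‖u‖ = 1) (hPe : P e = e) (hPu : P u = 0)
    {n : ℕ} {Q : Set E} {L : Set (E × E)} (hL : IsClosedExactLagrangian n Q L)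
    (hI : Inv P L) (hI' : Inv (cp P) L) {z : E × E} (hz : z ∈ L) :
    ∃ a b, Orth a b ∧ P a = a ∧ P b = 0 ∧ InPl a b z.1 ∧ InPl a b z.2 := by
  obtain ⟨a, ha, hPa, a1, a2⟩ := hP.exists_line he hPe (x := z.1) (y := z.2)
    (fun v w ho hv hw => moment ho hL (hP.rot_mem hI ho hv hw) hz)
  obtain ⟨b, hb, hPb, b1, b2⟩ := hP.compl.exists_line hu (hP.ker_iff.1 hPu) (x := z.1) (y := z.2)
    (fun v w ho hv hw => moment ho hL (hP.compl.rot_mem hI' ho hv hw) hz)
  have hPb' := hP.ker_iff.2 hPb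
  exact ⟨a, b, ⟨ha, hb, hP.perp hPa hPb'⟩, hPa, hPb', hP.inPl a1 b1, hP.inPl a2 b2⟩

/-- an involution that exchanges two unit vectors of the range and fixes the kernel -/
theorem exchange {a a' : E} (ha : ‖a‖ = 1) (ha' : ‖a'‖ = 1) (hPa : P a = a) (hPa' : P a' = a') :
    ∃ g : E ≃ₗᵢ[ℝ] E, (∀ x, P x = 0 → g x = x) ∧ g a = a' ∧ (∀ x, g (g x) = x) ∧
      (LinearMap.det (g.toLinearEquiv : E →ₗ[ℝ] E) = 1 ∨
        LinearMap.det (g.toLinearEquiv : E →ₗ[ℝ] E) = -1) := by
  by_cases haa : a = a'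
  · refine ⟨LinearIsometryEquiv.refl ℝ E, fun x _ => rfl, haa, fun x => rfl, Or.inl ?_⟩
    exact LinearMap.det_id
  · have hd : a - a' ≠ 0 := sub_ne_zero.2 haa
    have hn : ‖a - a'‖ ≠ 0 := norm_ne_zero_iff.2 hd
    have hu : ‖‖a - a'‖⁻¹ • (a - a')‖ = 1 := unit_of_ne hd
    refine ⟨Refl (‖a - a'‖⁻¹ • (a - a')), fun x hx => ?_, ?_, ?_, Or.inr (Refl_det hu)⟩
    · rw [Refl_apply hu, inner_smul_left, inner_sub_left, hP.perp hPa hx, hP.perp hPa' hx]
      simp
    · rw [Refl_apply hu, inner_smul_left, smul_smul]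
      have h1 : (inner ℝ (a - a') a : ℝ) = ‖a - a'‖ ^ 2 / 2 := by
        rw [← real_inner_self_eq_norm_sq, inner_sub_left, inner_sub_left, inner_sub_right,
          inner_sub_right, e_e ha, e_e ha', real_inner_comm a' a]
        ring
      have h2 : 2 * ((starRingEnd ℝ) ‖a - a'‖⁻¹ * inner ℝ (a - a') a) * ‖a - a'‖⁻¹ = 1 := by
        rw [h1]
        simp only [conj_trivial]
        field_simp
      rw [h2, one_smul]
      abel
    · intro x
      unfold Refl
      exact Submodule.reflection_reflection _ x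

/-- In the range of dimension at least two `L` is invariant under isometries of determinant
`± 1` that fix the kernel. -/
theorem inv_of_det {e u : E} (he : ‖e‖ = 1) (hu : ‖u‖ = 1) (hPe : P e = e) (hPu : P u = 0)
    {n : ℕ} {Q : Set E} {L : Set (E × E)} (hL : IsClosedExactLagrangian n Q L)
    (hI : Inv P L) (hI' : Inv (cp P) L)
    (h2 : ∀ a, ‖a‖ = 1 → P a = a → ∃ c, ‖c‖ = 1 ∧ P c = c ∧ inner ℝ a c = (0 : ℝ))
    {g : E ≃ₗᵢ[ℝ] E} (hg : ∀ x, P x = 0 → g x = x)
    (hdet : LinearMap.det (g.toLinearEquiv : E →ₗ[ℝ] E) = 1 ∨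
      LinearMap.det (g.toLinearEquiv : E →ₗ[ℝ] E) = -1) {z : E × E} (hz : z ∈ L) :
    (g z.1, g z.2) ∈ L := by
  rcases hdet with h | h
  · exact hI g hg h z hz
  · obtain ⟨a, b, ho, hPa, hPb, z1, z2⟩ := hP.exists_plane he hu hPe hPu hL hI hI' hz
    obtain ⟨c, hc, hPc, hac⟩ := h2 a ho.v1 hPa
    have hca : inner ℝ c a = (0 : ℝ) := by rw [real_inner_comm]; exact hac
    have hcb : inner ℝ c b = (0 : ℝ) := hP.perp hPc hPb
    have hfix : ∀ x, InPl a b x → Refl c x = x := by
      intro x hx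
      rw [Refl_apply hc, hx]
      simp only [inner_add_right, inner_smul_right, hca, hcb]
      simp
    have h4 := hI ((Refl c).trans g) (fun x hx => by
      show g (Refl c x) = x
      rw [Refl_apply hc, hP.perp hPc hx]
      simp [hg x hx]) (by
      have : (((Refl c).trans g).toLinearEquiv : E →ₗ[ℝ] E) =
        (g.toLinearEquiv : E →ₗ[ℝ] E) ∘ₗ ((Refl c).toLinearEquiv : E →ₗ[ℝ] E) := rfl
      rw [this, LinearMap.det_comp, h, Refl_det hc]
      norm_num) z hz
    have h5 : ((Refl c).trans g) z.1 = g z.1 := by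
      show g (Refl c z.1) = g z.1
      rw [hfix _ z1]
    have h6 : ((Refl c).trans g) z.2 = g z.2 := by
      show g (Refl c z.2) = g z.2
      rw [hfix _ z2]
    rwa [h5, h6] at h4

end IsPr

theorem inPl_map {e u a b : E} {g : E ≃ₗᵢ[ℝ] E} (hga : g a = e) (hgb : g b = u) {x : E}
    (hx : InPl a b x) : InPl e u (g x) := by
  unfold InPl at *
  have h1 : (inner ℝ e (g x) : ℝ) = inner ℝ a x := by
    rw [← hga]
    exact g.inner_map_map _ _
  have h2 : (inner ℝ u (g x) : ℝ) = inner ℝ b x := by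
    rw [← hgb]
    exact g.inner_map_map _ _
  rw [h1, h2]
  conv_lhs => rw [hx]
  rw [map_add, map_smul, map_smul, hga, hgb]

theorem wt_map {e a : E} {g : E ≃ₗᵢ[ℝ] E} (hga : g a = e) (z : E × E) :
    wt e (g z.1, g z.2) = wt a z := by
  have h1 : ∀ x, (inner ℝ e (g x) : ℝ) = inner ℝ a x := by
    intro x
    rw [← hga]
    exact g.inner_map_map _ _
  unfold wt
  simp only [h1, LinearIsometryEquiv.norm_map]

end Vale.Agent.P220.R2.H180.T
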