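import Vale.Agent.P220.R2.H180.T.Final

/-!
# Symmetric Lagrangians have vanishing moments
-/

open Set Filter Topology
open scoped ContDiff

set_option linter.unusedSectionVars false

namespace Vale.Agent.P220.R2.H180.T

open H57

variable {E : Type} [NormedAddCommGroup E] [InnerProductSpace ℝ E] [FiniteDimensional ℝ E]

/-- the moment of a linear symmetry of a closed exact Lagrangian vanishes -/
theorem moment_lin {n : ℕ} {Q : Set E} {L : Set (E × E)} (hL : IsClosedExactLagrangian n Q L)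
    {A : E →L[ℝ] E} (hA : ∀ x, (inner ℝ (A x) x : ℝ) = 0)
    (ht : ∀ z ∈ L, (A z.1, A z.2) ∈ Tan L z) {z : E × E} (hz : z ∈ L) :
    (inner ℝ z.2 (A z.1) : ℝ) = 0 := by
  obtain ⟨U, ρ, hρ, hd⟩ := exists_ret hL.mfd hL.compact
  obtain ⟨f, hf, hex⟩ := hL.exact
  have hskew : ∀ x y, (inner ℝ (A x) y : ℝ) = -inner ℝ x (A y) := by
    intro x y
    have h1 := hA (x + y)
    rw [map_add, inner_add_left, inner_add_right, inner_add_right, hA x, hA y,
      real_inner_comm x (A y)] at h1
    linarith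
  set Y : E × E → E × E := fun z => (A z.1, A z.2) with hY
  have hYs : ContDiff ℝ ∞ Y :=
    (A.contDiff.comp contDiff_fst).prodMk (A.contDiff.comp contDiff_snd)
  set c : ℝ → E × E := fun t => (NormedSpace.exp (t • A) z.1, NormedSpace.exp (t • A) z.2) with hc
  have hexp : ∀ (x : E) (t : ℝ), HasDerivAt (fun t : ℝ => NormedSpace.exp (t • A) x)
      (A (NormedSpace.exp (t • A) x)) t := by
    intro x t
    have h1 : HasDerivAt (fun u : ℝ => NormedSpace.exp (u • A)) (A * NormedSpace.exp (t • A)) t :=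
      hasDerivAt_exp_smul_const' A t
    have h2 := (ContinuousLinearMap.apply ℝ E x).hasFDerivAt.comp_hasDerivAt t h1
    exact h2
  have hcd : ∀ t, HasDerivAt c (Y (c t)) t := fun t => (hexp z.1 t).prodMk (hexp z.2 t)
  have hc0 : c 0 = z := by simp [hc]
  have hcL : ∀ t, c t ∈ L := hρ.curve_mem hYs (fun x hx => (hρ.mem_Tan hx).1 (ht x hx)) hcd
    (t₀ := 0) (by rw [hc0]; exact hz)
  -- the moment is constant
  have hk : ∀ t, (inner ℝ (c t).2 (A (c t).1) : ℝ) = inner ℝ z.2 (A z.1) := by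
    have h1 : ∀ t, HasDerivAt (fun t => (inner ℝ (c t).2 (A (c t).1) : ℝ)) 0 t := by
      intro t
      have h2 : HasDerivAt (fun t => (c t).2) (A (c t).2) t := hexp z.2 t
      have h3 : HasDerivAt (fun t => A (c t).1) (A (A (c t).1)) t :=
        A.hasFDerivAt.comp_hasDerivAt t (hexp z.1 t)
      have h4 := h2.inner ℝ h3
      refine h4.congr_deriv ?_
      rw [hskew (c t).2 (A (c t).1)]
      ring
    intro t
    have h2 := is_const_of_deriv_eq_zero (fun t => (h1 t).differentiableAt)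
      (fun t => (h1 t).deriv) t 0
    rw [h2, hc0]
  set k : ℝ := inner ℝ z.2 (A z.1) with hkdef
  have hfd : ∀ t, HasDerivAt (fun t => f (c t) - t * k) 0 t := by
    intro t
    have h1 : HasDerivAt (fun t => f (c t)) _ t :=
      (hf.differentiable (by simp) (c t)).hasFDerivAt.comp_hasDerivAt t (hcd t)
    rw [hex _ (hcL t) _ (ht _ (hcL t))] at h1
    have h4 := h1.sub ((hasDerivAt_id t).mul_const k)
    refine h4.congr_deriv ?_
    simp only [lam]
    rw [hk t]
    ring
  have hconst : ∀ t, f (c t) = f z + t * k := by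
    intro t
    have h1 := is_const_of_deriv_eq_zero (fun t => (hfd t).differentiableAt)
      (fun t => (hfd t).deriv) t 0
    simp only [hc0, zero_mul, sub_zero] at h1
    linarith
  obtain ⟨B, hB⟩ := hL.compact.exists_bound_of_continuousOn (f := f) hf.continuous.continuousOn
  by_contra hne
  have h1 := hB _ (hcL ((2 * B + 1) / k))
  have h2 := hB z hz
  rw [hconst, div_mul_cancel₀ _ hne, Real.norm_eq_abs, abs_le] at h1
  rw [Real.norm_eq_abs, abs_le] at h2
  linarith [h1.2, h2.1]

/-- symmetric Lagrangians -/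
theorem mom_of_sym (K : Submodule ℝ E) {n : ℕ} {L : Set (E × E)}
    (hL : IsClosedExactLagrangian n (Sph E) L)
    (h : ∀ q ∈ Sph E, ∀ v ∈ K, ∀ w ∈ K, ∃ A : E →L[ℝ] E, (∀ x, (inner ℝ (A x) x : ℝ) = 0) ∧
      A q = (inner ℝ v q : ℝ) • w - (inner ℝ w q : ℝ) • v ∧
      ∀ z ∈ L, (A z.1, A z.2) ∈ Tan L z) : Mom K.starProjection L := by
  intro v w ho hv hw z hz
  obtain ⟨h1, -⟩ := cot_sph.1 (hL.sub hz)
  obtain ⟨A, hA, hAq, hAt⟩ := h z.1 (mem_Sph.2 h1) v (Submodule.starProjection_eq_self_iff.1 hv) w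
    (Submodule.starProjection_eq_self_iff.1 hw)
  have h2 := moment_lin hL hA hAt hz
  rw [hAq, inner_sub_right, inner_smul_right, inner_smul_right, real_inner_comm w z.2,
    real_inner_comm v z.2] at h2
  linarith

end Vale.Agent.P220.R2.H180.T
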